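import Mathlib

/-!
P252: the autonomous vector field of the profile equation, its invariant box, and the
global trajectories of the truncated field.
-/

namespace Vale.Agent.P252

open Set Filter Topology

noncomputable section

/-- The first root constant. -/
def e1 (k : ℝ) : ℝ := (k + 1) / k

/-- The second root constant. -/
def e2 (k : ℝ) : ℝ := (k + 2) / (2 * k)

/-- The constant term of the growth coefficient. -/
def s0 (k : ℝ) : ℝ := (2 * k + 3) / (2 * k)

/-- The reciprocal of the affine exponent. -/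
def be (k : ℝ) : ℝ := (k + 3) / (k + 2)

/-- The quadratic in the second equation. -/
def pp (k q : ℝ) : ℝ := (q + e1 k) * (q + e2 k)

/-- The growth coefficient in the third equation. -/
def sg (k q : ℝ) : ℝ := s0 k + be k * q

/-- The vector field in logarithmic time, in the variables `(g, q, f)`. -/
def X (k : ℝ) (y : ℝ × ℝ × ℝ) : ℝ × ℝ × ℝ :=
  (y.1 * (4 + y.2.2 - y.1) / 4,
   (y.1 * pp k y.2.1 - k / 2 * y.2.1 * (2 + y.2.2)) / 2,
   (2 + y.2.2) * (-(k * y.2.2) / 2 + sg k y.2.1 * y.1) / 2)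

lemma lower_coef_pos {k q : ℝ} (hk : 10 ≤ k) (hq : 0 ≤ q) :
    0 < (2 + 87 / 25 * q) * sg k q - 87 / 25 * pp k q := by
  have h0 : (0:ℝ) < k := by linarith
  have key : ∀ a b c : ℝ, 0 < a → 0 ≤ b → 0 ≤ c → 0 < a + b * q + c * q ^ 2 := by
    intro a b c ha hb hc
    positivity
  have hA : 0 < 2 * s0 k - 87 / 25 * (e1 k * e2 k) := by
    have : 2 * s0 k - 87 / 25 * (e1 k * e2 k)
        = (13 * k ^ 2 - 111 * k - 174) / (50 * k ^ 2) := by
      unfold s0 e1 e2; field_simp; ring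
    rw [this]
    apply div_pos
    · nlinarith
    · positivity
  have hB : 0 ≤ 2 * be k + 87 / 25 * s0 k - 87 / 25 * (e1 k + e2 k) := by
    have h1 : 1 ≤ be k := by
      unfold be; rw [le_div_iff₀ (by linarith)]; linarith
    have h2 : 87 / 25 * (e1 k + e2 k) - 87 / 25 * s0 k ≤ 2 := by
      have : 87 / 25 * (e1 k + e2 k) - 87 / 25 * s0 k = 87 * (k + 1) / (50 * k) := by
        unfold s0 e1 e2; field_simp; ring
      rw [this, div_le_iff₀ (by positivity)]
      nlinarith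
    linarith
  have hC : 0 ≤ 87 / 25 * (be k - 1) := by
    have h1 : 1 ≤ be k := by
      unfold be; rw [le_div_iff₀ (by linarith)]; linarith
    linarith
  have := key _ _ _ hA hB hC
  unfold sg pp
  linear_combination this

lemma upper_coef_pos {k q : ℝ} (hk : 10 ≤ k) (hq : 0 ≤ q) (hq' : q ≤ 6 / 7) :
    0 < 4 * pp k q - (2 + 4 * q) * sg k q := by
  have h0 : (0:ℝ) < k := by linarith
  have : 4 * pp k q - (2 + 4 * q) * sg k q
      = ((3 * k + 4) * (k + 2) + 4 * k * q - 4 * k ^ 2 * q ^ 2) / (k ^ 2 * (k + 2)) := by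
    unfold pp sg s0 e1 e2 be; field_simp; ring
  rw [this]
  apply div_pos
  · have h1 : q ^ 2 ≤ 36 / 49 := by nlinarith
    nlinarith [mul_le_mul_of_nonneg_left h1 (sq_nonneg k), mul_nonneg h0.le hq]
  · positivity

lemma top_q_neg {k g f : ℝ} (hk : 10 ≤ k) (_hg : 0 ≤ g) (hg' : g ≤ 149 / 20)
    (hf : 87 / 25 * (6 / 7) ≤ f) :
    g * pp k (6 / 7) - k / 2 * (6 / 7) * (2 + f) < 0 := by
  have h0 : (0:ℝ) < k := by linarith
  have h1 : e1 k ≤ 11 / 10 := by unfold e1; rw [div_le_iff₀ h0]; linarith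
  have h2 : e2 k ≤ 3 / 5 := by unfold e2; rw [div_le_iff₀ (by linarith)]; linarith
  have h1' : 0 ≤ e1 k := by unfold e1; positivity
  have h2' : 0 ≤ e2 k := by unfold e2; positivity
  have hp : pp k (6 / 7) ≤ (6 / 7 + 11 / 10) * (6 / 7 + 3 / 5) := by
    unfold pp; gcongr
  have hp0 : 0 ≤ pp k (6 / 7) := by unfold pp; positivity
  nlinarith [mul_le_mul hg' hp hp0 (by norm_num : (0:ℝ) ≤ 149 / 20),
    mul_le_mul_of_nonneg_left hf h0.le]

lemma no_touch {u : ℝ → ℝ} {a T d : ℝ} (haT : a < T) (hu : HasDerivAt u d T) (h0 : u T = 0)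
    (hd : 0 < d) (hpos : ∀ x ∈ Ioo a T, 0 ≤ u x) : False := by
  have h1 := (hasDerivAt_iff_tendsto_slope.1 hu).eventually (lt_mem_nhds hd)
  have h2 : ∀ᶠ x in 𝓝[<] T, 0 < slope u T x :=
    h1.filter_mono (nhdsWithin_mono _ fun x (hx : x < T) => ne_of_lt hx)
  have h3 : ∀ᶠ x in 𝓝[<] T, x ∈ Ioo a T := Ioo_mem_nhdsLT haT
  obtain ⟨x, hx1, hx2⟩ := (h2.and h3).exists
  rw [slope_def_field, h0, sub_zero] at hx1
  have : u x / (x - T) ≤ 0 :=
    div_nonpos_of_nonneg_of_nonpos (hpos x hx2) (by linarith [hx2.2])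
  linarith

/-- The open invariant region. -/
def Good (y : ℝ × ℝ × ℝ) : Prop :=
  0 < y.1 ∧ y.1 < 149 / 20 ∧ 0 < y.2.1 ∧ y.2.1 < 6 / 7 ∧
    87 / 25 * y.2.1 < y.2.2 ∧ y.2.2 < 4 * y.2.1

/-- Clamp to an interval. -/
def cl (a b x : ℝ) : ℝ := max a (min b x)

/-- Clamp to the box containing the invariant region. -/
def clamp (y : ℝ × ℝ × ℝ) : ℝ × ℝ × ℝ := (cl 0 9 y.1, cl 0 2 y.2.1, cl 0 5 y.2.2)

/-- The truncated vector field. -/
def Xc (k : ℝ) (y : ℝ × ℝ × ℝ) : ℝ × ℝ × ℝ := X k (clamp y)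

lemma cl_mem {a b : ℝ} (h : a ≤ b) (x : ℝ) : cl a b x ∈ Icc a b :=
  ⟨le_max_left _ _, max_le h (min_le_left _ _)⟩

lemma cl_eq {a b x : ℝ} (h1 : a ≤ x) (h2 : x ≤ b) : cl a b x = x := by
  rw [cl, min_eq_right h2, max_eq_right h1]

/-- The box. -/
def box : Set (ℝ × ℝ × ℝ) := Icc 0 9 ×ˢ (Icc 0 2 ×ˢ Icc 0 5)

lemma clamp_mem (y : ℝ × ℝ × ℝ) : clamp y ∈ box :=
  ⟨cl_mem (by norm_num) _, cl_mem (by norm_num) _, cl_mem (by norm_num) _⟩

lemma clamp_eq {y : ℝ × ℝ × ℝ} (h : y ∈ box) : clamp y = y := by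
  obtain ⟨⟨a, b⟩, ⟨c, d⟩, ⟨e, f⟩⟩ := h
  simp [clamp, cl_eq a b, cl_eq c d, cl_eq e f]

lemma contDiff_X (k : ℝ) {n : WithTop ℕ∞} : ContDiff ℝ n (X k) := by
  unfold X pp sg
  fun_prop

lemma lipschitz_cl (a b : ℝ) : LipschitzWith 1 (cl a b) :=
  (LipschitzWith.id.const_min b).const_max a

lemma lipschitz_clamp : LipschitzWith 1 clamp := by
  have h := ((lipschitz_cl 0 9).comp (LipschitzWith.prod_fst (α := ℝ) (β := ℝ × ℝ))).prodMk
    (((lipschitz_cl 0 2).comp ((LipschitzWith.prod_fst (α := ℝ) (β := ℝ)).comp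
      (LipschitzWith.prod_snd (α := ℝ) (β := ℝ × ℝ)))).prodMk
     ((lipschitz_cl 0 5).comp ((LipschitzWith.prod_snd (α := ℝ) (β := ℝ)).comp
      (LipschitzWith.prod_snd (α := ℝ) (β := ℝ × ℝ)))))
  simp only [max_self, one_mul, Function.comp_def] at h
  exact h

lemma exists_Xc_lipschitz (k : ℝ) :
    ∃ (K L : NNReal), LipschitzWith K (Xc k) ∧ ∀ y, ‖Xc k y‖ ≤ L := by
  have hb : IsCompact box := isCompact_Icc.prod (isCompact_Icc.prod isCompact_Icc)
  have hc : Convex ℝ box := (convex_Icc _ _).prod ((convex_Icc _ _).prod (convex_Icc _ _))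
  obtain ⟨K, hK⟩ :=
    (contDiff_X k (n := 1)).contDiffOn.exists_lipschitzOnWith one_ne_zero hc hb
  obtain ⟨L, hL⟩ := (hb.image_of_continuousOn
    (contDiff_X k (n := 1)).continuous.continuousOn).isBounded.exists_norm_le
  refine ⟨K, L.toNNReal, ?_, fun y => ?_⟩
  · have := hK.comp (lipschitz_clamp.lipschitzOnWith (s := univ)) (fun y _ => clamp_mem y)
    rw [lipschitzOnWith_univ, mul_one] at this
    exact this
  · exact (hL _ ⟨_, clamp_mem y, rfl⟩).trans (Real.le_coe_toNNReal _)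

lemma exists_global {E : Type*} [NormedAddCommGroup E] [NormedSpace ℝ E] [CompleteSpace E]
    {V : E → E} {K L : NNReal} (hK : LipschitzWith K V) (hL : ∀ y, ‖V y‖ ≤ L)
    (s : ℝ) (y0 : E) : ∃ y : ℝ → E, y s = y0 ∧ ∀ x, HasDerivAt y (V (y x)) x := by
  have loc : ∀ T : NNReal, ∃ α : ℝ → E, α s = y0 ∧
      ∀ x ∈ Icc (s - T) (s + T), HasDerivWithinAt α (V (α x)) (Icc (s - T) (s + T)) x := by
    intro T
    have hs : s ∈ Icc (s - (T:ℝ)) (s + T) := by
      constructor <;> linarith [T.coe_nonneg]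
    have hpl : IsPicardLindelof (fun _ => V) (tmin := s - T) (tmax := s + T) ⟨s, hs⟩ y0
        (L * T) 0 L K := by
      refine ⟨fun _ _ => hK.lipschitzOnWith, fun _ _ => continuousOn_const,
        fun _ _ x _ => hL x, ?_⟩
      simp
    exact hpl.exists_eq_forall_mem_Icc_hasDerivWithinAt₀
  choose α hα0 hα using loc
  have hd : ∀ (T : NNReal) x, x ∈ Ioo (s - (T:ℝ)) (s + T) →
      HasDerivAt (α T) (V (α T x)) x := fun T x hx =>
    (hα T x (Ioo_subset_Icc_self hx)).hasDerivAt (Icc_mem_nhds hx.1 hx.2)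
  have agree : ∀ (T U : NNReal) x, (T:ℝ) ≤ U → x ∈ Ioo (s - (T:ℝ)) (s + T) →
      α T x = α U x := by
    intro T U x hTU hx
    exact ODE_solution_unique_of_mem_Ioo (v := fun _ => V) (s := fun _ => univ)
      (t₀ := s) (fun _ _ => hK.lipschitzOnWith)
      ⟨by linarith [hx.1, hx.2], by linarith [hx.1, hx.2]⟩
      (fun z hz => ⟨hd T z hz, trivial⟩)
      (fun z hz => ⟨hd U z ⟨by linarith [hz.1], by linarith [hz.2]⟩, trivial⟩)
      (by rw [hα0, hα0]) hx
  let T : ℝ → NNReal := fun x => (|x - s| + 1).toNNReal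
  have hT : ∀ x, (T x : ℝ) = |x - s| + 1 := fun x => Real.coe_toNNReal _ (by positivity)
  have hmem : ∀ x, x ∈ Ioo (s - (T x : ℝ)) (s + T x) := by
    intro x; rw [hT]
    constructor <;> linarith [le_abs_self (x - s), neg_abs_le (x - s)]
  refine ⟨fun x => α (T x) x, hα0 _, fun x => ?_⟩
  have e : (fun z => α (T z) z) =ᶠ[𝓝 x] α (T x) := by
    filter_upwards [Ioo_mem_nhds (hmem x).1 (hmem x).2] with z hz
    rcases le_total (T z : ℝ) (T x) with h | h
    · exact agree _ _ z h (hmem z)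
    · exact (agree _ _ z h hz).symm
  exact (hd _ x (hmem x)).congr_of_eventuallyEq e

lemma good_mem_box {y : ℝ × ℝ × ℝ}
    (h : 0 ≤ y.1 ∧ y.1 ≤ 149 / 20 ∧ 0 ≤ y.2.1 ∧ y.2.1 ≤ 6 / 7 ∧
      87 / 25 * y.2.1 ≤ y.2.2 ∧ y.2.2 ≤ 4 * y.2.1) : y ∈ box := by
  obtain ⟨a, b, c, d, e, f⟩ := h
  exact ⟨⟨a, by linarith⟩, ⟨c, by linarith⟩, ⟨by linarith, by linarith⟩⟩

lemma good_forever {k : ℝ} (hk : 10 ≤ k) {y : ℝ → ℝ × ℝ × ℝ}
    (hy : ∀ x, HasDerivAt y (Xc k (y x)) x) {s : ℝ} (hs : Good (y s)) :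
    ∀ x, s ≤ x → Good (y x) := by
  have hcont : Continuous y :=
    continuous_iff_continuousAt.2 fun x => (hy x).continuousAt
  have cq : Continuous (fun v : ℝ × ℝ × ℝ => v.2.1) := continuous_fst.comp continuous_snd
  have cf : Continuous (fun v : ℝ × ℝ × ℝ => v.2.2) := continuous_snd.comp continuous_snd
  have hopen : IsOpen {v : ℝ × ℝ × ℝ | Good v} := by
    unfold Good
    exact (isOpen_lt continuous_const continuous_fst).inter
      ((isOpen_lt continuous_fst continuous_const).inter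
      ((isOpen_lt continuous_const cq).inter
      ((isOpen_lt cq continuous_const).inter
      ((isOpen_lt (cq.const_mul _) cf).inter (isOpen_lt cf (cq.const_mul _))))))
  by_contra hne
  push Not at hne
  obtain ⟨x0, hx0, hbad⟩ := hne
  let S := {x : ℝ | s ≤ x ∧ ¬ Good (y x)}
  have hclosed : IsClosed S := isClosed_Ici.inter (hopen.preimage hcont).isClosed_compl
  have hbdd : BddBelow S := ⟨s, fun x hx => hx.1⟩
  set T := sInf S
  have hTS : T ∈ S := hclosed.csInf_mem ⟨x0, hx0, hbad⟩ hbdd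
  have hsT : s < T := lt_of_le_of_ne hTS.1 (by intro e; exact hTS.2 (e ▸ hs))
  have hbef : ∀ x ∈ Ioo s T, Good (y x) := by
    intro x hx; by_contra hb
    exact absurd (csInf_le hbdd (show x ∈ S from ⟨hx.1.le, hb⟩)) (not_le.2 hx.2)
  -- all inequalities hold weakly on the closed interval
  have hweak : ∀ x ∈ Icc s T, 0 ≤ (y x).1 ∧ (y x).1 ≤ 149 / 20 ∧ 0 ≤ (y x).2.1 ∧
      (y x).2.1 ≤ 6 / 7 ∧ 87 / 25 * (y x).2.1 ≤ (y x).2.2 ∧ (y x).2.2 ≤ 4 * (y x).2.1 := by
    have hsub : Ioo s T ⊆ y ⁻¹' {v : ℝ × ℝ × ℝ | 0 ≤ v.1 ∧ v.1 ≤ 149 / 20 ∧ 0 ≤ v.2.1 ∧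
      v.2.1 ≤ 6 / 7 ∧ 87 / 25 * v.2.1 ≤ v.2.2 ∧ v.2.2 ≤ 4 * v.2.1} := by
      intro x hx
      obtain ⟨a, b, c, d, e, f⟩ := hbef x hx
      exact ⟨a.le, b.le, c.le, d.le, e.le, f.le⟩
    have hcl : IsClosed {v : ℝ × ℝ × ℝ | 0 ≤ v.1 ∧ v.1 ≤ 149 / 20 ∧ 0 ≤ v.2.1 ∧
      v.2.1 ≤ 6 / 7 ∧ 87 / 25 * v.2.1 ≤ v.2.2 ∧ v.2.2 ≤ 4 * v.2.1} :=
      (isClosed_le continuous_const continuous_fst).inter
      ((isClosed_le continuous_fst continuous_const).inter
      ((isClosed_le continuous_const cq).inter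
      ((isClosed_le cq continuous_const).inter
      ((isClosed_le (cq.const_mul _) cf).inter
        (isClosed_le cf (cq.const_mul _))))))
    intro x hx
    exact closure_minimal hsub (hcl.preimage hcont) (by rwa [closure_Ioo hsT.ne])
  have hX : ∀ x ∈ Icc s T, HasDerivAt y (X k (y x)) x := by
    intro x hx
    have := hy x
    rwa [Xc, clamp_eq (good_mem_box (hweak x hx))] at this
  have d1 : ∀ x ∈ Icc s T, HasDerivAt (fun z => (y z).1) (X k (y x)).1 x :=
    fun x hx => (hX x hx).fst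
  have dT := hX T ⟨hsT.le, le_rfl⟩
  have dg : HasDerivAt (fun z => (y z).1) (X k (y T)).1 T := dT.fst
  have dq : HasDerivAt (fun z => (y z).2.1) (X k (y T)).2.1 T := dT.snd.fst
  have df : HasDerivAt (fun z => (y z).2.2) (X k (y T)).2.2 T := dT.snd.snd
  obtain ⟨w1, w2, w3, w4, w5, w6⟩ := hweak T ⟨hsT.le, le_rfl⟩
  -- the first coordinate cannot reach zero
  have hg0 : 0 < (y T).1 := by
    have hmono : MonotoneOn (fun x => (y x).1 * Real.exp x) (Icc s T) := by
      refine monotoneOn_of_hasDerivWithinAt_nonneg (convex_Icc s T)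
        ((continuous_fst.comp hcont).mul Real.continuous_exp).continuousOn
        (f' := fun x => (X k (y x)).1 * Real.exp x + (y x).1 * Real.exp x) ?_ ?_
      · intro x hx
        rw [interior_Icc] at hx
        exact ((d1 x (Ioo_subset_Icc_self hx)).mul (Real.hasDerivAt_exp x)).hasDerivWithinAt
      · intro x hx
        rw [interior_Icc] at hx
        obtain ⟨a, b, c, d, e, f⟩ := hweak x (Ioo_subset_Icc_self hx)
        rw [← add_mul]
        refine mul_nonneg ?_ (Real.exp_pos x).le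
        have : (X k (y x)).1 + (y x).1 = (y x).1 * (8 + (y x).2.2 - (y x).1) / 4 := by
          simp only [X]; ring
        rw [this]
        have : 0 ≤ 8 + (y x).2.2 - (y x).1 := by linarith
        positivity
    have h := hmono ⟨le_rfl, hsT.le⟩ ⟨hsT.le, le_rfl⟩ hsT.le
    have h2 : 0 < (y s).1 * Real.exp s := mul_pos hs.1 (Real.exp_pos s)
    exact (mul_pos_iff_of_pos_right (Real.exp_pos T)).1 (lt_of_lt_of_le h2 h)
  have hTb := hTS.2
  rcases lt_or_eq_of_le w3 with hq0 | hq0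
  · rcases lt_or_eq_of_le w4 with hq1 | hq1
    · rcases lt_or_eq_of_le w5 with hf0 | hf0
      · rcases lt_or_eq_of_le w6 with hf1 | hf1
        · rcases lt_or_eq_of_le w2 with hg1 | hg1
          · exact hTb ⟨hg0, hg1, hq0, hq1, hf0, hf1⟩
          · -- g touches its upper bound
            refine no_touch hsT (dg.const_sub (149 / 20)) (by simp [hg1]) ?_
              (fun x hx => by have := (hbef x hx).2.1; linarith)
            simp only [X, neg_pos]
            rw [hg1]; nlinarith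
        · -- f touches 4 q
          refine no_touch hsT ((dq.const_mul 4).sub df) (by simp [hf1]) ?_
            (fun x hx => by have := (hbef x hx).2.2.2.2.2; simp only [Pi.sub_apply]; linarith)
          have h := mul_pos hg0 (upper_coef_pos hk w3 w4)
          simp only [X]
          rw [hf1]
          nlinarith [h]
      · -- f touches the lower line
        refine no_touch hsT (df.sub (dq.const_mul (87 / 25))) (by simp [← hf0]) ?_
          (fun x hx => by have := (hbef x hx).2.2.2.2.1; simp only [Pi.sub_apply]; linarith)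
        have h := mul_pos hg0 (lower_coef_pos hk w3)
        simp only [X]
        rw [← hf0]
        nlinarith [h]
    · -- q touches its upper bound
      refine no_touch hsT (dq.const_sub (6 / 7)) (by simp [hq1]) ?_
        (fun x hx => by have := (hbef x hx).2.2.2.1; linarith)
      have h := top_q_neg hk w1 w2 (f := (y T).2.2) (by rw [← hq1]; exact w5)
      simp only [X, neg_pos]
      rw [hq1]; linarith
  · -- q touches zero
    refine no_touch hsT dq hq0.symm ?_ (fun x hx => (hbef x hx).2.2.1.le)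
    have hf : (y T).2.2 = 0 := by linarith
    have hp : 0 < pp k 0 := by
      unfold pp e1 e2
      have : (0:ℝ) < k := by linarith
      positivity
    simp only [X]
    rw [← hq0, hf]
    nlinarith [mul_pos hg0 hp]

lemma contDiffOn_of_ode {E : Type*} [NormedAddCommGroup E] [NormedSpace ℝ E]
    {V : E → E} (hV : ContDiff ℝ ((⊤ : ℕ∞) : WithTop ℕ∞) V) {s : Set ℝ} (hs : IsOpen s) {y : ℝ → E}
    (hy : ∀ x ∈ s, HasDerivAt y (V (y x)) x) :
    ContDiffOn ℝ ((⊤ : ℕ∞) : WithTop ℕ∞) y s := by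
  rw [contDiffOn_infty]
  intro n
  induction n with
  | zero =>
    rw [Nat.cast_zero, contDiffOn_zero]
    exact fun x hx => (hy x hx).continuousAt.continuousWithinAt
  | succ n ih =>
    rw [Nat.cast_succ, contDiffOn_succ_iff_deriv_of_isOpen hs]
    refine ⟨fun x hx => (hy x hx).differentiableAt.differentiableWithinAt, by simp, ?_⟩
    exact ((hV.of_le (by exact_mod_cast le_top)).comp_contDiffOn ih).congr
      fun x hx => (hy x hx).deriv

end

end Vale.Agent.P252
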