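import Vale.Agent.P252.Flow

/-!
P252: the invariant region in the borderline case `k = 9`, where the trajectory tends to the
degenerate equilibrium `(9, 11/9, 5)`.
-/

namespace Vale.Agent.P252

open Set Filter Topology

noncomputable section

/-- The open invariant region for `k = 9`. -/
def Good9 (y : ℝ × ℝ × ℝ) : Prop :=
  0 < y.1 ∧ 17 / 5 * y.2.1 < y.2.2 ∧ y.2.2 < 45 / 11 * y.2.1 ∧
    11 / 2 * y.2.1 - 31 / 18 < y.2.2 ∧ 38 / 5 * y.2.1 - 13 / 45 < y.1 ∧
    y.1 < 2 * y.2.2 - 11 / 2 * y.2.1 + 103 / 18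

/-- The closure conditions of `Good9`. -/
def Weak9 (y : ℝ × ℝ × ℝ) : Prop :=
  0 ≤ y.1 ∧ 17 / 5 * y.2.1 ≤ y.2.2 ∧ y.2.2 ≤ 45 / 11 * y.2.1 ∧
    11 / 2 * y.2.1 - 31 / 18 ≤ y.2.2 ∧ 38 / 5 * y.2.1 - 13 / 45 ≤ y.1 ∧
    y.1 ≤ 2 * y.2.2 - 11 / 2 * y.2.1 + 103 / 18

lemma weak9_of_good {y : ℝ × ℝ × ℝ} (h : Good9 y) : Weak9 y :=
  ⟨h.1.le, h.2.1.le, h.2.2.1.le, h.2.2.2.1.le, h.2.2.2.2.1.le, h.2.2.2.2.2.le⟩

lemma weak9_mem_box {y : ℝ × ℝ × ℝ} (h : Weak9 y) : y ∈ box := by
  obtain ⟨a, b, c, d, e, f⟩ := h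
  exact ⟨⟨a, by linarith⟩, ⟨by linarith, by linarith⟩, ⟨by linarith, by linarith⟩⟩

lemma pp_nine (q : ℝ) : pp 9 q = (q + 10 / 9) * (q + 11 / 18) := by
  unfold pp e1 e2; norm_num

lemma sg_nine (q : ℝ) : sg 9 q = 7 / 6 + 12 / 11 * q := by
  unfold sg s0 be; norm_num

lemma lower9 {q : ℝ} (hq : 0 ≤ q) :
    0 < (2 + 17 / 5 * q) * sg 9 q - 17 / 5 * pp 9 q := by
  rw [pp_nine, sg_nine]
  nlinarith

lemma upper9 {q : ℝ} (hq : 0 ≤ q) (hq' : q < 11 / 9) :
    0 < 45 / 11 * pp 9 q - (2 + 45 / 11 * q) * sg 9 q := by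
  rw [pp_nine, sg_nine]
  nlinarith [mul_nonneg hq (sub_nonneg.2 hq'.le)]

variable {g q f : ℝ}

lemma face2 (hg : 0 ≤ g) (hf : f = 11 / 2 * q - 31 / 18) (h3 : 38 / 5 * q - 13 / 45 ≤ g)
    (h4 : g ≤ 2 * f - 11 / 2 * q + 103 / 18) (h5 : 17 / 5 * q ≤ f) (hq : q < 11 / 9) :
    0 < (X 9 (g, q, f)).2.2 - 11 / 2 * (X 9 (g, q, f)).2.1 := by
  simp only [X, pp_nine, sg_nine]
  subst hf
  nlinarith [mul_nonneg (sub_nonneg.2 h3) (sub_nonneg.2 hq.le),
    mul_nonneg (sub_nonneg.2 h4) (sub_nonneg.2 hq.le)]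

lemma face3 (hgd : g = 38 / 5 * q - 13 / 45) (hg : 0 ≤ g) (h1 : f ≤ 45 / 11 * q)
    (h2 : 11 / 2 * q - 31 / 18 ≤ f) (h4 : g ≤ 2 * f - 11 / 2 * q + 103 / 18)
    (h5 : 17 / 5 * q ≤ f) (hq : q < 11 / 9) :
    0 < (X 9 (g, q, f)).1 - 38 / 5 * (X 9 (g, q, f)).2.1 := by
  simp only [X, pp_nine]
  subst hgd
  nlinarith [mul_nonneg hg (sub_nonneg.2 h1), mul_nonneg hg (sub_nonneg.2 hq.le)]

lemma face4 (hgd : g = 2 * f - 11 / 2 * q + 103 / 18) (hg : 0 ≤ g) (h1 : f ≤ 45 / 11 * q)
    (h2 : 11 / 2 * q - 31 / 18 ≤ f) (h3 : 38 / 5 * q - 13 / 45 ≤ g) (h5 : 17 / 5 * q ≤ f)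
    (hq : q < 11 / 9) :
    0 < 2 * (X 9 (g, q, f)).2.2 - 11 / 2 * (X 9 (g, q, f)).2.1 - (X 9 (g, q, f)).1 := by
  simp only [X, pp_nine, sg_nine]
  subst hgd
  nlinarith [mul_nonneg (sub_nonneg.2 h1) (sub_nonneg.2 hq.le),
    mul_nonneg (sub_nonneg.2 h2) (sub_nonneg.2 hq.le),
    mul_nonneg (sub_nonneg.2 h1) (sub_nonneg.2 h2)]

lemma good9_forever {y : ℝ → ℝ × ℝ × ℝ}
    (hy : ∀ x, HasDerivAt y (Xc 9 (y x)) x) {s : ℝ} (hs : Good9 (y s)) :
    ∀ x, s ≤ x → Good9 (y x) := by
  have hcont : Continuous y :=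
    continuous_iff_continuousAt.2 fun x => (hy x).continuousAt
  have cq : Continuous (fun v : ℝ × ℝ × ℝ => v.2.1) := continuous_fst.comp continuous_snd
  have cf : Continuous (fun v : ℝ × ℝ × ℝ => v.2.2) := continuous_snd.comp continuous_snd
  have hopen : IsOpen {v : ℝ × ℝ × ℝ | Good9 v} := by
    unfold Good9
    exact (isOpen_lt continuous_const continuous_fst).inter
      ((isOpen_lt (cq.const_mul _) cf).inter
      ((isOpen_lt cf (cq.const_mul _)).inter
      ((isOpen_lt ((cq.const_mul _).sub continuous_const) cf).inter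
      ((isOpen_lt ((cq.const_mul _).sub continuous_const) continuous_fst).inter
      (isOpen_lt continuous_fst
        (((cf.const_mul _).sub (cq.const_mul _)).add continuous_const))))))
  have hclw : IsClosed {v : ℝ × ℝ × ℝ | Weak9 v} := by
    unfold Weak9
    exact (isClosed_le continuous_const continuous_fst).inter
      ((isClosed_le (cq.const_mul _) cf).inter
      ((isClosed_le cf (cq.const_mul _)).inter
      ((isClosed_le ((cq.const_mul _).sub continuous_const) cf).inter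
      ((isClosed_le ((cq.const_mul _).sub continuous_const) continuous_fst).inter
      (isClosed_le continuous_fst
        (((cf.const_mul _).sub (cq.const_mul _)).add continuous_const))))))
  by_contra hne
  push Not at hne
  obtain ⟨x0, hx0, hbad⟩ := hne
  let S := {x : ℝ | s ≤ x ∧ ¬ Good9 (y x)}
  have hclosed : IsClosed S := isClosed_Ici.inter (hopen.preimage hcont).isClosed_compl
  have hbdd : BddBelow S := ⟨s, fun x hx => hx.1⟩
  set T := sInf S
  have hTS : T ∈ S := hclosed.csInf_mem ⟨x0, hx0, hbad⟩ hbdd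
  have hsT : s < T := lt_of_le_of_ne hTS.1 (by intro e; exact hTS.2 (e ▸ hs))
  have hbef : ∀ x ∈ Ioo s T, Good9 (y x) := by
    intro x hx; by_contra hb
    exact absurd (csInf_le hbdd (show x ∈ S from ⟨hx.1.le, hb⟩)) (not_le.2 hx.2)
  have hweak : ∀ x ∈ Icc s T, Weak9 (y x) := by
    have hsub : Ioo s T ⊆ y ⁻¹' {v : ℝ × ℝ × ℝ | Weak9 v} := fun x hx => weak9_of_good (hbef x hx)
    intro x hx
    exact closure_minimal hsub (hclw.preimage hcont) (by rwa [closure_Ioo hsT.ne])
  have hX : ∀ x ∈ Icc s T, HasDerivAt y (X 9 (y x)) x := by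
    intro x hx
    have := hy x
    rwa [Xc, clamp_eq (weak9_mem_box (hweak x hx))] at this
  have d1 : ∀ x ∈ Icc s T, HasDerivAt (fun z => (y z).1) (X 9 (y x)).1 x :=
    fun x hx => (hX x hx).fst
  have dT := hX T ⟨hsT.le, le_rfl⟩
  have dg : HasDerivAt (fun z => (y z).1) (X 9 (y T)).1 T := dT.fst
  have dq : HasDerivAt (fun z => (y z).2.1) (X 9 (y T)).2.1 T := dT.snd.fst
  have df : HasDerivAt (fun z => (y z).2.2) (X 9 (y T)).2.2 T := dT.snd.snd
  obtain ⟨w0, w5, w1, w2, w3, w4⟩ := hweak T ⟨hsT.le, le_rfl⟩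
  -- the first coordinate cannot reach zero
  have hg0 : 0 < (y T).1 := by
    have hmono : MonotoneOn (fun x => (y x).1 * Real.exp x) (Icc s T) := by
      refine monotoneOn_of_hasDerivWithinAt_nonneg (convex_Icc s T)
        ((continuous_fst.comp hcont).mul Real.continuous_exp).continuousOn
        (f' := fun x => (X 9 (y x)).1 * Real.exp x + (y x).1 * Real.exp x) ?_ ?_
      · intro x hx
        rw [interior_Icc] at hx
        exact ((d1 x (Ioo_subset_Icc_self hx)).mul (Real.hasDerivAt_exp x)).hasDerivWithinAt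
      · intro x hx
        rw [interior_Icc] at hx
        obtain ⟨a, b, c, d, e, f⟩ := hweak x (Ioo_subset_Icc_self hx)
        rw [← add_mul]
        refine mul_nonneg ?_ (Real.exp_pos x).le
        have : (X 9 (y x)).1 + (y x).1 = (y x).1 * (8 + (y x).2.2 - (y x).1) / 4 := by
          simp only [X]; ring
        rw [this]
        have : 0 ≤ 8 + (y x).2.2 - (y x).1 := by linarith
        positivity
    have h := hmono ⟨le_rfl, hsT.le⟩ ⟨hsT.le, le_rfl⟩ hsT.le
    have h2 : 0 < (y s).1 * Real.exp s := mul_pos hs.1 (Real.exp_pos s)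
    exact (mul_pos_iff_of_pos_right (Real.exp_pos T)).1 (lt_of_lt_of_le h2 h)
  -- the equilibrium is not reached
  have hqC : (y T).2.1 < 11 / 9 := by
    by_contra hc
    rw [not_lt] at hc
    have hq : (y T).2.1 = 11 / 9 := by linarith
    have hf : (y T).2.2 = 5 := by linarith
    have hg : (y T).1 = 9 := by linarith
    have hfix : y T = ((9:ℝ), (11 / 9 : ℝ), (5:ℝ)) := Prod.ext hg (Prod.ext hq hf)
    have hX0 : Xc 9 ((9:ℝ), (11 / 9 : ℝ), (5:ℝ)) = 0 := by
      rw [Xc, clamp_eq ⟨⟨by norm_num, by norm_num⟩, ⟨by norm_num, by norm_num⟩,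
        ⟨by norm_num, by norm_num⟩⟩]
      simp only [X, pp_nine, sg_nine]
      norm_num
    obtain ⟨K, L, hK, -⟩ := exists_Xc_lipschitz 9
    have h := ODE_solution_unique_of_mem_Ioo (v := fun _ => Xc 9) (s := fun _ => univ)
      (a := s - 1) (b := T + 1) (f := y) (g := fun _ => ((9:ℝ), (11 / 9 : ℝ), (5:ℝ))) (t₀ := T)
      (fun _ _ => hK.lipschitzOnWith) ⟨by linarith, by linarith⟩
      (fun x _ => ⟨hy x, trivial⟩)
      (fun x _ => ⟨by simpa only [hX0] using hasDerivAt_const x _, trivial⟩)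
      hfix (show s ∈ Ioo (s - 1) (T + 1) from ⟨by linarith, by linarith⟩)
    have h1 := hs.2.2.1
    rw [h] at h1
    norm_num at h1
  have hq0' : 0 ≤ (y T).2.1 := by linarith
  have hTb := hTS.2
  rcases lt_or_eq_of_le hq0' with hq0 | hq0
  · rcases lt_or_eq_of_le w5 with e5 | e5
    · rcases lt_or_eq_of_le w1 with e1' | e1'
      · rcases lt_or_eq_of_le w2 with e2' | e2'
        · rcases lt_or_eq_of_le w3 with e3 | e3
          · rcases lt_or_eq_of_le w4 with e4 | e4
            · exact hTb ⟨hg0, e5, e1', e2', e3, e4⟩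
            · -- the face g = 2 f - 11/2 q + 103/18
              refine no_touch hsT ((((df.const_mul 2).sub (dq.const_mul (11 / 2))).sub dg).add_const
                (103 / 18)) (by simp only [Pi.sub_apply]; linarith) ?_
                (fun x hx => by
                  have := (hbef x hx).2.2.2.2.2; simp only [Pi.sub_apply]; linarith)
              exact face4 e4 w0 w1 w2 w3 w5 hqC
          · -- the face g = 38/5 q - 13/45
            refine no_touch hsT ((dg.sub (dq.const_mul (38 / 5))).add_const (13 / 45))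
              (by simp only [Pi.sub_apply]; linarith) ?_
              (fun x hx => by have := (hbef x hx).2.2.2.2.1; simp only [Pi.sub_apply]; linarith)
            exact face3 e3.symm w0 w1 w2 w4 w5 hqC
        · -- the face f = 11/2 q - 31/18
          refine no_touch hsT ((df.sub (dq.const_mul (11 / 2))).add_const (31 / 18))
            (by simp only [Pi.sub_apply]; linarith) ?_
            (fun x hx => by have := (hbef x hx).2.2.2.1; simp only [Pi.sub_apply]; linarith)
          exact face2 w0 e2'.symm w3 w4 w5 hqC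
      · -- f touches 45/11 q
        refine no_touch hsT ((dq.const_mul (45 / 11)).sub df) (by simp [e1']) ?_
          (fun x hx => by have := (hbef x hx).2.2.1; simp only [Pi.sub_apply]; linarith)
        have h := mul_pos hg0 (upper9 hq0' hqC)
        simp only [X]
        rw [e1']
        nlinarith [h]
    · -- f touches the lower line
      refine no_touch hsT (df.sub (dq.const_mul (17 / 5))) (by simp [← e5]) ?_
        (fun x hx => by have := (hbef x hx).2.1; simp only [Pi.sub_apply]; linarith)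
      have h := mul_pos hg0 (lower9 hq0')
      simp only [X]
      rw [← e5]
      nlinarith [h]
  · -- q touches zero
    refine no_touch hsT dq hq0.symm ?_ (fun x hx => by linarith [(hbef x hx).2.1, (hbef x hx).2.2.1])
    have hf : (y T).2.2 = 0 := by linarith
    simp only [X, pp_nine]
    rw [← hq0, hf]
    norm_num [hg0]

end

end Vale.Agent.P252
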