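import Vale.Agent.P252.Profile

/-!
P252: the functions of two variables built from the profile, with their derivatives.
-/

namespace Vale.Agent.P252

open Set Filter Topology

noncomputable section

/-- The data of a global profile. -/
structure Data (k : ℕ) where
  G : ℝ → ℝ
  Q : ℝ → ℝ
  F : ℝ → ℝ
  r : ℝ
  hr : 0 < r
  sG' : ContDiffOn ℝ ((⊤ : ℕ∞) : WithTop ℕ∞) G (Ioi (-r))
  sQ' : ContDiffOn ℝ ((⊤ : ℕ∞) : WithTop ℕ∞) Q (Ioi (-r))
  sF' : ContDiffOn ℝ ((⊤ : ℕ∞) : WithTop ℕ∞) F (Ioi (-r))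
  pos : ∀ t ∈ Ioi (-r), 0 < G t ∧ -1 < F t
  ode : ∀ t ∈ Ioi (-r), OdeAt k G Q F t
  G0 : G 0 = 1
  F0 : F 0 = 0

lemma exists_data {k : ℕ} (hk : 9 ≤ k) : Nonempty (Data k) := by
  obtain ⟨G, Q, F, r, hr, a, b, c, d, e, f⟩ :=
    exists_triple (k := (k:ℝ)) (by
      rcases Nat.lt_or_eq_of_le hk with h | h
      · exact Or.inr (by exact_mod_cast h)
      · exact Or.inl (by exact_mod_cast h.symm))
  exact ⟨⟨G, Q, F, r, hr, a, b, c, fun t ht => ⟨(d t ht).1, (d t ht).2.1⟩,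
    fun t ht => (d t ht).2.2, e, f⟩⟩

namespace Data

variable {k : ℕ} (D : Data k)

/-- The logarithmic derivative of the radial profile. -/
def ell (t : ℝ) : ℝ := D.G t / 2

/-- Its derivative. -/
def dell (t : ℝ) : ℝ := deriv D.G t / 2

/-- The logarithm of the radial profile. -/
def lphi (t : ℝ) : ℝ := ∫ s in (0:ℝ)..t, D.ell s

/-- The radial profile. -/
def phi (t : ℝ) : ℝ := Real.exp (D.lphi t)

/-- The total second unknown. -/
def QT (t : ℝ) : ℝ := ((k:ℝ) + 1) * ((k:ℝ) + 2) / (2 * k) + D.Q t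

/-- The radial part of the Hessian determinant. -/
def Psi (t : ℝ) : ℝ := D.phi t ^ (k + 1) * D.ell t ^ k * (2 + D.F t) / 2

/-- The affine exponent. -/
def alp (k : ℕ) : ℝ := -(((k:ℝ) + 2) / ((k:ℝ) + 3))

/-- The radial part of the power of the determinant. -/
def Wr (t : ℝ) : ℝ := D.Psi t ^ alp k

lemma zero_mem : (0:ℝ) ∈ Ioi (-D.r) := neg_lt_zero.2 D.hr

lemma mem_of_nonneg {t : ℝ} (ht : 0 ≤ t) : t ∈ Ioi (-D.r) :=
  lt_of_lt_of_le (neg_lt_zero.2 D.hr) ht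

lemma nhds_mem {t : ℝ} (ht : t ∈ Ioi (-D.r)) : Ioi (-D.r) ∈ 𝓝 t := isOpen_Ioi.mem_nhds ht

lemma hasDeriv_G {t : ℝ} (ht : t ∈ Ioi (-D.r)) : HasDerivAt D.G (deriv D.G t) t :=
  ((D.sG'.differentiableOn (by simp)).differentiableAt (D.nhds_mem ht)).hasDerivAt

lemma hasDeriv_Q {t : ℝ} (ht : t ∈ Ioi (-D.r)) : HasDerivAt D.Q (deriv D.Q t) t :=
  ((D.sQ'.differentiableOn (by simp)).differentiableAt (D.nhds_mem ht)).hasDerivAt

lemma hasDeriv_F {t : ℝ} (ht : t ∈ Ioi (-D.r)) : HasDerivAt D.F (deriv D.F t) t :=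
  ((D.sF'.differentiableOn (by simp)).differentiableAt (D.nhds_mem ht)).hasDerivAt

lemma ode' {t : ℝ} (ht : t ∈ Ioi (-D.r)) :
    4 * (t * deriv D.G t) = D.G t * (D.F t - t * D.G t) ∧
    2 * (t * deriv D.Q t) = t * D.G t * pp k (D.Q t) - k / 2 * D.Q t * (2 + D.F t) ∧
    2 * (t * deriv D.F t) =
      (2 + D.F t) * (-(k * D.F t) / 2 + sg k (D.Q t) * (t * D.G t)) := by
  obtain ⟨a, b, c, ha, hb, hc, o⟩ := D.ode t ht
  rw [ha.deriv, hb.deriv, hc.deriv]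
  exact o

lemma hasDeriv_lphi {t : ℝ} (ht : t ∈ Ioi (-D.r)) : HasDerivAt D.lphi (D.ell t) t := by
  have hc : ContinuousOn D.ell (Ioi (-D.r)) := D.sG'.continuousOn.div_const 2
  refine intervalIntegral.integral_hasDerivAt_right ?_
    (hc.stronglyMeasurableAtFilter isOpen_Ioi t ht) (hc.continuousAt (D.nhds_mem ht))
  exact (hc.mono (by rw [uIcc]; exact fun x hx => lt_of_lt_of_le (lt_min D.zero_mem ht) hx.1)
    ).intervalIntegrable

lemma hasDeriv_ell {t : ℝ} (ht : t ∈ Ioi (-D.r)) : HasDerivAt D.ell (D.dell t) t :=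
  (D.hasDeriv_G ht).div_const 2

lemma hasDeriv_phi {t : ℝ} (ht : t ∈ Ioi (-D.r)) :
    HasDerivAt D.phi (D.ell t * D.phi t) t := by
  have := (D.hasDeriv_lphi ht).exp
  exact this.congr_deriv (by rw [phi]; ring)

lemma phi_zero : D.phi 0 = 1 := by simp [phi, lphi]

lemma phi_pos (t : ℝ) : 0 < D.phi t := Real.exp_pos _

lemma contDiffOn_phi : ContDiffOn ℝ ((⊤ : ℕ∞) : WithTop ℕ∞) D.phi (Ioi (-D.r)) := by
  have hl : ContDiffOn ℝ ((⊤ : ℕ∞) : WithTop ℕ∞) D.lphi (Ioi (-D.r)) := by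
    rw [contDiffOn_infty_iff_deriv_of_isOpen isOpen_Ioi]
    exact ⟨fun t ht => (D.hasDeriv_lphi ht).differentiableAt.differentiableWithinAt,
      (D.sG'.div_const 2).congr fun t ht => (D.hasDeriv_lphi ht).deriv⟩
  exact hl.exp

lemma ell_pos {t : ℝ} (ht : t ∈ Ioi (-D.r)) : 0 < D.ell t := half_pos (D.pos t ht).1

lemma F_pos {t : ℝ} (ht : t ∈ Ioi (-D.r)) : 0 < 2 + D.F t := by
  have := (D.pos t ht).2; linarith

lemma Psi_pos {t : ℝ} (ht : t ∈ Ioi (-D.r)) : 0 < D.Psi t := by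
  have := D.phi_pos t; have := D.ell_pos ht; have := D.F_pos ht
  unfold Psi; positivity

lemma log_deriv_eq (hk : 9 ≤ k) {t : ℝ} (ht : t ∈ Ioi (-D.r)) :
    ((k:ℝ) + 1) * D.ell t + k * D.dell t / D.ell t + deriv D.F t / (2 + D.F t)
      = be k * (D.QT t * D.ell t) := by
  set E : ℝ → ℝ := fun s => ((k:ℝ) + 1) * D.ell s + k * D.dell s / D.ell s
    + deriv D.F s / (2 + D.F s) - be k * (D.QT s * D.ell s) with hE
  have hk0 : (0:ℝ) < k := by exact_mod_cast (show 0 < k by omega)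
  have hne : ∀ s ∈ Ioi (-D.r), s ≠ 0 → E s = 0 := by
    intro s hs hs0
    obtain ⟨o1, -, o3⟩ := D.ode' hs
    have hG := (D.pos s hs).1
    have hF := D.F_pos hs
    have a : deriv D.G s = D.G s * (D.F s - s * D.G s) / (4 * s) := by
      field_simp; linarith
    have b : deriv D.F s =
        (2 + D.F s) * (-(k * D.F s) / 2 + sg k (D.Q s) * (s * D.G s)) / (2 * s) := by
      rw [eq_div_iff (by simpa using hs0)]; linarith
    simp only [hE, ell, dell, QT]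
    rw [a, b]
    unfold sg s0 be
    field_simp
    ring
  have hdG : ContinuousOn (deriv D.G) (Ioi (-D.r)) :=
    D.sG'.continuousOn_deriv_of_isOpen isOpen_Ioi (by simp)
  have hdF : ContinuousOn (deriv D.F) (Ioi (-D.r)) :=
    D.sF'.continuousOn_deriv_of_isOpen isOpen_Ioi (by simp)
  have hG := D.sG'.continuousOn
  have hQ := D.sQ'.continuousOn
  have hF := D.sF'.continuousOn
  have hcont : ContinuousOn E (Ioi (-D.r)) := by
    have hl : ContinuousOn D.ell (Ioi (-D.r)) := hG.div_const 2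
    have hdl : ContinuousOn D.dell (Ioi (-D.r)) := hdG.div_const 2
    refine (((continuousOn_const.mul hl).add ((continuousOn_const.mul hdl).div hl
      (fun s hs => (D.ell_pos hs).ne'))).add (hdF.div (continuousOn_const.add hF)
      (fun s hs => (D.F_pos hs).ne'))).sub (continuousOn_const.mul
      ((continuousOn_const.add hQ).mul hl))
  have : E t = 0 := by
    by_cases h : t = 0
    · have h1 : Tendsto E (𝓝[≠] t) (𝓝 (E t)) :=
        (hcont.continuousAt (D.nhds_mem ht)).tendsto.mono_left nhdsWithin_le_nhds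
      have h2 : E =ᶠ[𝓝[≠] t] fun _ => 0 := by
        filter_upwards [self_mem_nhdsWithin, nhdsWithin_le_nhds (D.nhds_mem ht)] with s hs1 hs2
        exact hne s hs2 (by rw [← h]; exact hs1)
      exact tendsto_nhds_unique (h1.congr' h2) tendsto_const_nhds
    · exact hne t ht h
  simp only [hE] at this
  linarith

lemma hasDeriv_Wr (hk : 9 ≤ k) {t : ℝ} (ht : t ∈ Ioi (-D.r)) :
    HasDerivAt D.Wr (-(D.QT t * D.ell t) * D.Wr t) t := by
  have hp := ((D.hasDeriv_phi ht).pow (k + 1)).mul ((D.hasDeriv_ell ht).pow k)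
  have h := ((hp.mul ((D.hasDeriv_F ht).const_add 2)).div_const 2).rpow_const (p := alp k)
    (Or.inl (D.Psi_pos ht).ne')
  refine h.congr_deriv ?_
  have hl := D.ell_pos ht
  have hF := D.F_pos ht
  have hphi := D.phi_pos t
  have hPsi := D.Psi_pos ht
  have e := D.log_deriv_eq hk ht
  simp only [Pi.mul_apply, Pi.pow_apply]
  rw [show (D.phi t ^ (k + 1) * D.ell t ^ k * (2 + D.F t) / 2) = D.Psi t from rfl,
    Real.rpow_sub_one hPsi.ne']
  have hk1 : D.ell t ^ k = D.ell t ^ (k - 1) * D.ell t := by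
    rw [← pow_succ]; congr 1; omega
  have key : ((((k + 1 : ℕ) : ℝ) * D.phi t ^ (k + 1 - 1) * (D.ell t * D.phi t) * D.ell t ^ k
      + D.phi t ^ (k + 1) * ((k : ℝ) * D.ell t ^ (k - 1) * D.dell t)) * (2 + D.F t)
      + D.phi t ^ (k + 1) * D.ell t ^ k * deriv D.F t) / 2
      = D.Psi t * (((k:ℝ) + 1) * D.ell t + k * D.dell t / D.ell t
        + deriv D.F t / (2 + D.F t)) := by
    unfold Psi
    rw [Nat.add_sub_cancel, pow_succ, hk1]
    push_cast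
    field_simp
  rw [key, e, Wr]
  have hbe : alp k * be k = -1 := by
    unfold alp be
    field_simp
  field_simp
  linear_combination (D.QT t) * hbe

/-- The entire solution in the two reduced variables. -/
def V (t w : ℝ) : ℝ := Real.sqrt (w ^ 2 + D.phi t)

/-- First `t`-derivative of the solution. -/
def Vt (t w : ℝ) : ℝ := D.ell t * D.phi t / (2 * D.V t w)

/-- First `w`-derivative of the solution. -/
def Vw (t w : ℝ) : ℝ := w / D.V t w

/-- Second `t`-derivative of the solution. -/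
def Vtt (t w : ℝ) : ℝ :=
  (D.dell t + D.ell t ^ 2) * D.phi t / (2 * D.V t w)
    - D.ell t ^ 2 * D.phi t ^ 2 / (4 * D.V t w ^ 3)

/-- Mixed derivative of the solution. -/
def Vtw (t w : ℝ) : ℝ := -(D.ell t * D.phi t * w) / (2 * D.V t w ^ 3)

/-- Second `w`-derivative of the solution. -/
def Vww (t w : ℝ) : ℝ := D.phi t / D.V t w ^ 3

/-- The power of the Hessian determinant. -/
def Z (t w : ℝ) : ℝ := D.V t w ^ (k + 2) * D.Wr t

/-- Logarithmic `t`-derivative of `Z`. -/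
def A (t w : ℝ) : ℝ :=
  ((k:ℝ) + 2) * (D.ell t * D.phi t) / (2 * D.V t w ^ 2) - D.QT t * D.ell t

/-- Logarithmic `w`-derivative of `Z`. -/
def B (t w : ℝ) : ℝ := ((k:ℝ) + 2) * w / D.V t w ^ 2

/-- First `t`-derivative of `Z`. -/
def Zt (t w : ℝ) : ℝ := D.Z t w * D.A t w

/-- First `w`-derivative of `Z`. -/
def Zw (t w : ℝ) : ℝ := D.Z t w * D.B t w

/-- Second `t`-derivative of `Z`. -/
def Ztt (t w : ℝ) : ℝ :=
  D.Z t w * (D.A t w ^ 2 + ((k:ℝ) + 2) / 2 * ((D.dell t + D.ell t ^ 2) * D.phi t / D.V t w ^ 2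
    - D.ell t ^ 2 * D.phi t ^ 2 / D.V t w ^ 4) - deriv D.Q t * D.ell t - D.QT t * D.dell t)

/-- Mixed derivative of `Z`. -/
def Ztw (t w : ℝ) : ℝ :=
  D.Z t w * (D.A t w * D.B t w - ((k:ℝ) + 2) * D.ell t * D.phi t * w / D.V t w ^ 4)

/-- Second `w`-derivative of `Z`. -/
def Zww (t w : ℝ) : ℝ :=
  D.Z t w * (D.B t w ^ 2 + ((k:ℝ) + 2) / D.V t w ^ 2
    - 2 * ((k:ℝ) + 2) * w ^ 2 / D.V t w ^ 4)

/-- The differential with the two given partial derivatives. -/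
def L2 (a b : ℝ) : ℝ × ℝ →L[ℝ] ℝ :=
  a • ContinuousLinearMap.fst ℝ ℝ ℝ + b • ContinuousLinearMap.snd ℝ ℝ ℝ

lemma V_pos (t w : ℝ) : 0 < D.V t w :=
  Real.sqrt_pos.2 (by have := D.phi_pos t; positivity)

lemma V_sq (t w : ℝ) : D.V t w ^ 2 = w ^ 2 + D.phi t :=
  Real.sq_sqrt (by have := D.phi_pos t; positivity)

lemma fst_comp {g : ℝ → ℝ} {d t w : ℝ} (h : HasDerivAt g d t) :
    HasFDerivAt (fun p : ℝ × ℝ => g p.1) (L2 d 0) (t, w) := by
  refine (h.comp_hasFDerivAt (t, w) hasFDerivAt_fst).congr_fderiv ?_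
  ext <;> simp [L2]

lemma snd_deriv (t w : ℝ) : HasFDerivAt (fun p : ℝ × ℝ => p.2) (L2 0 1) (t, w) := by
  refine hasFDerivAt_snd.congr_fderiv ?_
  ext <;> simp [L2]

lemma L2_ext {a b : ℝ} {T : ℝ × ℝ →L[ℝ] ℝ} (h1 : T (1, 0) = a) (h2 : T (0, 1) = b) :
    T = L2 a b := by
  ext <;> simp [L2, h1, h2]

lemma fderiv_V {t w : ℝ} (ht : t ∈ Ioi (-D.r)) :
    HasFDerivAt (fun p : ℝ × ℝ => D.V p.1 p.2) (L2 (D.Vt t w) (D.Vw t w)) (t, w) := by
  have h := (((snd_deriv t w).pow 2).add (fst_comp (w := w) (D.hasDeriv_phi ht))).sqrt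
    (show w ^ 2 + D.phi t ≠ 0 by have := D.phi_pos t; positivity)
  refine h.congr_fderiv (L2_ext ?_ ?_)
  · simp [L2, Vt, V]; ring
  · have := D.V_pos t w
    simp [L2, Vw, V]; field_simp

lemma fderiv_Vinv {t w : ℝ} (ht : t ∈ Ioi (-D.r)) :
    HasFDerivAt (fun p : ℝ × ℝ => (D.V p.1 p.2)⁻¹)
      (L2 (-D.Vt t w / D.V t w ^ 2) (-D.Vw t w / D.V t w ^ 2)) (t, w) := by
  have h := (hasDerivAt_inv (D.V_pos t w).ne').comp_hasFDerivAt (t, w) (D.fderiv_V (w := w) ht)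
  refine h.congr_fderiv (L2_ext ?_ ?_) <;> simp [L2] <;> ring

lemma fderiv_Vt {t w : ℝ} (ht : t ∈ Ioi (-D.r)) :
    HasFDerivAt (fun p : ℝ × ℝ => D.Vt p.1 p.2) (L2 (D.Vtt t w) (D.Vtw t w)) (t, w) := by
  have hn := fst_comp (w := w) (((D.hasDeriv_ell ht).mul (D.hasDeriv_phi ht)).div_const 2)
  have h := hn.mul (D.fderiv_Vinv (w := w) ht)
  have e : (fun p : ℝ × ℝ => D.Vt p.1 p.2)
      = fun p => D.ell p.1 * D.phi p.1 / 2 * (D.V p.1 p.2)⁻¹ := by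
    funext p; unfold Vt; ring
  rw [e]
  have := D.V_pos t w
  refine h.congr_fderiv (L2_ext ?_ ?_)
  · simp [L2, Vtt, Vt]; field_simp; ring
  · simp [L2, Vtw, Vw]; field_simp

lemma fderiv_Vw {t w : ℝ} (ht : t ∈ Ioi (-D.r)) :
    HasFDerivAt (fun p : ℝ × ℝ => D.Vw p.1 p.2) (L2 (D.Vtw t w) (D.Vww t w)) (t, w) := by
  have h := (snd_deriv t w).mul (D.fderiv_Vinv (w := w) ht)
  have e : (fun p : ℝ × ℝ => D.Vw p.1 p.2) = fun p => p.2 * (D.V p.1 p.2)⁻¹ := by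
    funext p; unfold Vw; ring
  rw [e]
  have hV := D.V_pos t w
  refine h.congr_fderiv (L2_ext ?_ ?_)
  · simp [L2, Vtw, Vt]; field_simp
  · simp [L2, Vww, Vw]; field_simp; linear_combination D.V_sq t w

lemma fderiv_Z (hk : 9 ≤ k) {t w : ℝ} (ht : t ∈ Ioi (-D.r)) :
    HasFDerivAt (fun p : ℝ × ℝ => D.Z p.1 p.2) (L2 (D.Zt t w) (D.Zw t w)) (t, w) := by
  have h := ((D.fderiv_V (w := w) ht).pow (k + 2)).mul (fst_comp (w := w) (D.hasDeriv_Wr hk ht))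
  have hV := D.V_pos t w
  have e : D.V t w ^ (k + 2) = D.V t w ^ (k + 1) * D.V t w := pow_succ _ _
  refine h.congr_fderiv (L2_ext ?_ ?_)
  · simp [L2, Zt, Z, A, Vt, e]; field_simp; ring
  · simp [L2, Zw, Z, B, Vw, e]; field_simp

lemma fderiv_Zt (hk : 9 ≤ k) {t w : ℝ} (ht : t ∈ Ioi (-D.r)) :
    HasFDerivAt (fun p : ℝ × ℝ => D.Zt p.1 p.2) (L2 (D.Ztt t w) (D.Ztw t w)) (t, w) := by
  have hn := fst_comp (w := w)
    ((((D.hasDeriv_ell ht).mul (D.hasDeriv_phi ht)).const_mul (((k:ℝ) + 2) / 2)))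
  have hq := fst_comp (w := w) (((D.hasDeriv_Q ht).const_add
    (((k:ℝ) + 1) * ((k:ℝ) + 2) / (2 * k))).mul (D.hasDeriv_ell ht))
  have hA := (hn.mul ((D.fderiv_Vinv (w := w) ht).pow 2)).sub hq
  have h := (D.fderiv_Z (w := w) hk ht).mul hA
  have e : (fun p : ℝ × ℝ => D.Zt p.1 p.2) = fun p => D.Z p.1 p.2 *
      (((k:ℝ) + 2) / 2 * (D.ell p.1 * D.phi p.1) * (D.V p.1 p.2)⁻¹ ^ 2
        - (((k:ℝ) + 1) * ((k:ℝ) + 2) / (2 * k) + D.Q p.1) * D.ell p.1) := by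
    funext p; unfold Zt A QT; ring
  rw [e]
  have hV := D.V_pos t w
  have hk0 : (0:ℝ) < k := by exact_mod_cast (show 0 < k by omega)
  refine h.congr_fderiv (L2_ext ?_ ?_)
  · simp [L2, Ztt, Zt, Zw, A, QT, Vt]; field_simp; ring
  · simp [L2, Ztw, Zt, Zw, A, B, QT, Vw]; field_simp; ring

lemma fderiv_Zw (hk : 9 ≤ k) {t w : ℝ} (ht : t ∈ Ioi (-D.r)) :
    HasFDerivAt (fun p : ℝ × ℝ => D.Zw p.1 p.2) (L2 (D.Ztw t w) (D.Zww t w)) (t, w) := by
  have hB := ((snd_deriv t w).const_mul ((k:ℝ) + 2)).mul ((D.fderiv_Vinv (w := w) ht).pow 2)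
  have h := (D.fderiv_Z (w := w) hk ht).mul hB
  have e : (fun p : ℝ × ℝ => D.Zw p.1 p.2) = fun p => D.Z p.1 p.2 *
      (((k:ℝ) + 2) * p.2 * (D.V p.1 p.2)⁻¹ ^ 2) := by
    funext p; unfold Zw B; ring
  rw [e]
  have hV := D.V_pos t w
  refine h.congr_fderiv (L2_ext ?_ ?_)
  · simp [L2, Ztw, Zt, A, B, Vt]; field_simp; ring
  · simp [L2, Zww, Zw, B, Vw]; field_simp; ring

end Data

end

end Vale.Agent.P252
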