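import Vale.Agent.P252.Functions

/-!
P252: matrices of the form arising as Hessians of functions of `(|x|^2, w)`.
-/

namespace Vale.Agent.P252

open Finset Matrix Filter Topology

noncomputable section

variable {k : ℕ}

/-- The Hessian of `u` in the standard basis. -/
def hess {n : ℕ} (u : (Fin n → ℝ) → ℝ) (x : Fin n → ℝ) : Matrix (Fin n) (Fin n) ℝ :=
  Matrix.of fun i j => fderiv ℝ (fun y => fderiv ℝ u y (Pi.single i 1)) x (Pi.single j 1)

/-- One on the last index. -/
def dl (k : ℕ) (i : Fin (k + 1)) : ℝ := if i = Fin.last k then 1 else 0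

/-- One off the last index. -/
def pl (k : ℕ) (i : Fin (k + 1)) : ℝ := 1 - dl k i

/-- The radial coordinates. -/
def yv (x : Fin (k + 1) → ℝ) (i : Fin (k + 1)) : ℝ := pl k i * x i

/-- The squared radius. -/
def TT (x : Fin (k + 1) → ℝ) : ℝ := ∑ i, yv x i ^ 2

/-- The matrix `a P + b y yᵀ + c (y eᵀ + e yᵀ) + d e eᵀ`. -/
def M4 (x : Fin (k + 1) → ℝ) (a b c d : ℝ) : Matrix (Fin (k + 1)) (Fin (k + 1)) ℝ :=
  Matrix.of fun i j => (if i = j then a * pl k i else 0) + b * (yv x i * yv x j)
    + c * (yv x i * dl k j + dl k i * yv x j) + d * (dl k i * dl k j)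

lemma TT_nonneg (x : Fin (k + 1) → ℝ) : 0 ≤ TT x := sum_nonneg fun i _ => sq_nonneg _

lemma sum_dl (f : Fin (k + 1) → ℝ) : ∑ i, dl k i * f i = f (Fin.last k) := by
  simp [dl, ite_mul]

lemma sum_pl : ∑ i, pl k i = (k : ℝ) := by
  simp only [pl, sum_sub_distrib]
  have h := sum_dl (k := k) (fun _ => (1:ℝ))
  simp only [mul_one] at h
  rw [h]; simp

lemma pl_yv (x : Fin (k + 1) → ℝ) (i : Fin (k + 1)) : pl k i * yv x i = yv x i := by
  unfold yv pl dl; split_ifs <;> ring

lemma pl_pl (i : Fin (k + 1)) : pl k i * pl k i = pl k i := by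
  unfold pl dl; split_ifs <;> ring

lemma dl_dl (i : Fin (k + 1)) : dl k i * dl k i = dl k i := by
  unfold dl; split_ifs <;> ring

lemma dl_pl (i : Fin (k + 1)) : dl k i * pl k i = 0 := by
  unfold pl dl; split_ifs <;> ring

lemma dl_yv (x : Fin (k + 1) → ℝ) (i : Fin (k + 1)) : dl k i * yv x i = 0 := by
  unfold yv; rw [← mul_assoc, dl_pl, zero_mul]

lemma M4_apply_mul (x : Fin (k + 1) → ℝ) (a b c d : ℝ) (z : Fin (k + 1) → ℝ) (i : Fin (k + 1)) :
    ∑ j, M4 x a b c d i j * z j = a * pl k i * z i + (b * yv x i + c * dl k i) * ∑ j, yv x j * z j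
      + (c * yv x i + d * dl k i) * z (Fin.last k) := by
  rw [← sum_dl z, mul_sum, mul_sum]
  have : a * pl k i * z i = ∑ j, if i = j then a * pl k i * z j else 0 := by simp
  rw [this, ← sum_add_distrib, ← sum_add_distrib]
  refine sum_congr rfl fun j _ => ?_
  simp only [M4, Matrix.of_apply]
  split_ifs <;> ring

lemma M4_mul (x : Fin (k + 1) → ℝ) (a b c d a' b' c' d' : ℝ) (i l : Fin (k + 1)) :
    (M4 x a b c d * M4 x a' b' c' d') i l =
      (if i = l then a * a' * pl k i else 0)
        + (a * b' + b * a' + b * b' * TT x + c * c') * (yv x i * yv x l)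
        + (a * c' + b * c' * TT x + c * d') * (yv x i * dl k l)
        + (c * a' + c * b' * TT x + d * c') * (dl k i * yv x l)
        + (c * c' * TT x + d * d') * (dl k i * dl k l) := by
  rw [Matrix.mul_apply, M4_apply_mul x a b c d (fun j => M4 x a' b' c' d' j l) i]
  have h1 : ∑ j, yv x j * M4 x a' b' c' d' j l
      = a' * yv x l + b' * TT x * yv x l + c' * TT x * dl k l := by
    have hs : ∑ j, yv x j * M4 x a' b' c' d' j l = ∑ j, M4 x a' b' c' d' l j * yv x j := by
      refine sum_congr rfl fun j _ => ?_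
      simp only [M4, Matrix.of_apply]
      by_cases h : j = l
      · subst h; simp; ring
      · simp [h, Ne.symm h]; ring
    rw [hs, M4_apply_mul]
    have e : ∑ j, yv x j * yv x j = TT x := by simp [TT, sq]
    have e2 : yv x (Fin.last k) = 0 := by simp [yv, pl, dl]
    rw [e, e2, mul_assoc a', pl_yv]; ring
  have e2 : yv x (Fin.last k) = 0 := by simp [yv, pl, dl]
  have e3 : pl k (Fin.last k) = 0 := by simp [pl, dl]
  have e4 : dl k (Fin.last k) = 1 := by simp [dl]
  have h2 : M4 x a' b' c' d' (Fin.last k) l = c' * yv x l + d' * dl k l := by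
    simp [M4, e2, e3, e4]
  have h3 : pl k i * M4 x a' b' c' d' i l = (if i = l then a' * pl k i else 0)
      + b' * (yv x i * yv x l) + c' * (yv x i * dl k l) := by
    simp only [M4, Matrix.of_apply]
    have p1 := pl_yv x i
    have p2 := dl_pl (k := k) i
    have p3 := pl_pl (k := k) i
    split_ifs
    · linear_combination (b' * yv x l + c' * dl k l) * p1 + (c' * yv x l + d' * dl k l) * p2
        + a' * p3
    · linear_combination (b' * yv x l + c' * dl k l) * p1 + (c' * yv x l + d' * dl k l) * p2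
  rw [mul_assoc a, h3, h1, h2]
  split_ifs <;> ring

lemma trace_M4 (x : Fin (k + 1) → ℝ) (a b c d a' b' c' d' : ℝ) :
    ∑ i, ∑ j, M4 x a b c d i j * M4 x a' b' c' d' i j =
      k * (a * a') + (a * b' + b * a') * TT x + b * b' * TT x ^ 2 + 2 * c * c' * TT x
        + d * d' := by
  have hsym : ∀ i j, M4 x a' b' c' d' i j = M4 x a' b' c' d' j i := by
    intro i j
    simp only [M4, Matrix.of_apply]
    by_cases h : i = j
    · subst h; rfl
    · simp [h, Ne.symm h]; ring
  have h : ∀ i, ∑ j, M4 x a b c d i j * M4 x a' b' c' d' i j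
      = (M4 x a b c d * M4 x a' b' c' d') i i := by
    intro i; rw [Matrix.mul_apply]
    exact sum_congr rfl fun j _ => by rw [hsym i j]
  simp only [h, M4_mul, if_true, dl_dl]
  simp only [sum_add_distrib, ← mul_sum]
  have e1 : ∑ i, yv x i * yv x i = TT x := by simp [TT, sq]
  have e2 : ∑ i, yv x i * dl k i = 0 := sum_eq_zero fun i _ => by rw [mul_comm, dl_yv]
  have e3 : ∑ i, dl k i * yv x i = 0 := sum_eq_zero fun i _ => dl_yv x i
  have e4 : ∑ i, dl k i = 1 := by simpa using sum_dl (k := k) (fun _ => (1:ℝ))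
  rw [e1, e2, e3, e4, sum_pl]; ring

lemma M4_inverse (x : Fin (k + 1) → ℝ) {a b c d : ℝ} (ha : a ≠ 0)
    (hD : (a + b * TT x) * d - c ^ 2 * TT x ≠ 0) :
    (M4 x a b c d)⁻¹ = M4 x (1 / a)
      ((c ^ 2 - b * d) / (a * ((a + b * TT x) * d - c ^ 2 * TT x)))
      (-c / ((a + b * TT x) * d - c ^ 2 * TT x))
      ((a + b * TT x) / ((a + b * TT x) * d - c ^ 2 * TT x)) := by
  apply Matrix.inv_eq_right_inv
  set t := TT x
  set S := (a + b * t) * d - c ^ 2 * t with hS
  ext i l
  rw [M4_mul]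
  have h1 : a * (1 / a) = 1 := by field_simp
  have h2 : a * ((c ^ 2 - b * d) / (a * S)) + b * (1 / a)
      + b * ((c ^ 2 - b * d) / (a * S)) * t + c * (-c / S) = 0 := by
    field_simp; rw [hS]; ring
  have h3 : a * (-c / S) + b * (-c / S) * t + c * ((a + b * t) / S) = 0 := by field_simp; ring
  have h4 : c * (1 / a) + c * ((c ^ 2 - b * d) / (a * S)) * t + d * (-c / S) = 0 := by
    field_simp; rw [hS]; ring
  have h5 : c * (-c / S) * t + d * ((a + b * t) / S) = 1 := by
    field_simp; rw [hS]; ring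
  rw [h1, h2, h3, h4, h5]
  by_cases h : i = l
  · subst h; simp [dl_dl, pl]
  · simp only [if_neg h, Matrix.one_apply_ne h, zero_mul, add_zero, zero_add, one_mul]
    unfold dl; split_ifs with h6 h7
    · exact absurd (h6.trans h7.symm) h
    all_goals simp

lemma M4_det (hk : 1 ≤ k) (x : Fin (k + 1) → ℝ) {a b c d : ℝ} (ha : a ≠ 0) (hd : d ≠ 0) :
    (M4 x a b c d).det = a ^ (k - 1) * ((a + b * TT x) * d - c ^ 2 * TT x) := by
  let v : Fin (k + 1) → ℝ := fun i => a * pl k i + d * dl k i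
  have hv : ∀ i, v i ≠ 0 := by
    intro i; simp only [v, pl, dl]; split_ifs <;> simp [ha, hd]
  let U : Matrix (Fin (k + 1)) (Fin 2) ℝ :=
    Matrix.of fun i s => if s = 0 then yv x i / v i else dl k i / v i
  let V : Matrix (Fin 2) (Fin (k + 1)) ℝ :=
    Matrix.of fun s j => if s = 0 then b * yv x j + c * dl k j else c * yv x j
  have hM : M4 x a b c d = Matrix.diagonal v * (1 + U * V) := by
    ext i j
    rw [Matrix.diagonal_mul, Matrix.add_apply, Matrix.mul_apply, Fin.sum_univ_two]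
    simp only [M4, U, V, Matrix.of_apply, if_true, Fin.one_eq_zero_iff, Nat.succ_ne_self,
      if_false]
    have hcancel : ∀ X Y : ℝ, v i * (yv x i / v i * X + dl k i / v i * Y)
        = yv x i * X + dl k i * Y := fun X Y => by have := hv i; field_simp
    rw [mul_add (v i), hcancel]
    by_cases h : i = j
    · subst h
      simp only [if_true, Matrix.one_apply_eq, v]
      linear_combination d * dl_dl (k := k) i
    · simp only [if_neg h, Matrix.one_apply_ne h]
      have : dl k i * dl k j = 0 := by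
        unfold dl; split_ifs with h6 h7
        · exact absurd (h6.trans h7.symm) h
        all_goals simp
      linear_combination d * this
  rw [hM, Matrix.det_mul, Matrix.det_diagonal, Matrix.det_one_add_mul_comm, Matrix.det_fin_two]
  have hp : ∏ i, v i = a ^ k * d := by
    rw [Fin.prod_univ_castSucc]
    simp [v, pl, dl, Fin.castSucc_ne_last]
  have ya : ∀ i, yv x i / v i = yv x i / a := by
    intro i; simp only [yv, v, pl, dl]; split_ifs <;> simp
  have da : ∀ i, dl k i / v i = dl k i / d := by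
    intro i; simp only [v, pl, dl]; split_ifs <;> simp
  have e1 : ∑ i, yv x i * yv x i = TT x := by simp [TT, sq]
  have e3 : ∑ i, dl k i * yv x i = 0 := sum_eq_zero fun i _ => dl_yv x i
  have e4 : ∑ i, dl k i * dl k i = 1 := by
    rw [sum_dl]; simp [dl]
  have e2 : ∑ i, yv x i * dl k i = 0 := sum_eq_zero fun i _ => by rw [mul_comm, dl_yv]
  have E00 : (V * U) 0 0 = b * TT x / a := by
    rw [Matrix.mul_apply]
    calc ∑ i, V 0 i * U i 0 = b / a * ∑ i, yv x i * yv x i + c / a * ∑ i, dl k i * yv x i := by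
          rw [mul_sum, mul_sum, ← sum_add_distrib]
          exact sum_congr rfl fun i _ => by simp [U, V, ya]; ring
      _ = b * TT x / a := by rw [e1, e3]; ring
  have E01 : (V * U) 0 1 = c / d := by
    rw [Matrix.mul_apply]
    calc ∑ i, V 0 i * U i 1 = b / d * ∑ i, yv x i * dl k i + c / d * ∑ i, dl k i * dl k i := by
          rw [mul_sum, mul_sum, ← sum_add_distrib]
          exact sum_congr rfl fun i _ => by simp [U, V, da]; ring
      _ = c / d := by rw [e2, e4]; ring
  have E10 : (V * U) 1 0 = c * TT x / a := by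
    rw [Matrix.mul_apply]
    calc ∑ i, V 1 i * U i 0 = c / a * ∑ i, yv x i * yv x i := by
          rw [mul_sum]
          exact sum_congr rfl fun i _ => by simp [U, V, ya]; ring
      _ = c * TT x / a := by rw [e1]; ring
  have E11 : (V * U) 1 1 = 0 := by
    rw [Matrix.mul_apply]
    calc ∑ i, V 1 i * U i 1 = c / d * ∑ i, yv x i * dl k i := by
          rw [mul_sum]
          exact sum_congr rfl fun i _ => by simp [U, V, da]; ring
      _ = 0 := by rw [e2]; ring
  simp only [Matrix.add_apply, E00, E01, E10, E11, Matrix.one_apply_eq, Matrix.one_apply_ne,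
    ne_eq, zero_ne_one, one_ne_zero, not_false_eq_true, hp, zero_add, add_zero]
  obtain ⟨m, rfl⟩ : ∃ m, k = m + 1 := ⟨k - 1, by omega⟩
  rw [Nat.add_sub_cancel, pow_succ]
  field_simp

lemma M4_posDef (x : Fin (k + 1) → ℝ) {a b c d : ℝ} (ha : 0 < a) (hd : 0 < d)
    (hD : 0 < (a + b * TT x) * d - c ^ 2 * TT x) : (M4 x a b c d).PosDef := by
  refine Matrix.PosDef.of_dotProduct_mulVec_pos ?_ fun z hz => ?_
  · ext i j
    simp only [Matrix.conjTranspose_apply, star_trivial, M4, Matrix.of_apply]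
    by_cases h : i = j
    · subst h; rfl
    · simp [h, Ne.symm h]; ring
  simp only [dotProduct, Matrix.mulVec, star_trivial, M4_apply_mul]
  set Y := ∑ j, yv x j * z j with hY
  set s := z (Fin.last k)
  set P := ∑ i, pl k i * z i ^ 2 with hP
  have hq : ∑ i, z i * (a * pl k i * z i + (b * yv x i + c * dl k i) * Y
      + (c * yv x i + d * dl k i) * s) = a * P + b * Y ^ 2 + 2 * c * Y * s + d * s ^ 2 := by
    have hzero : ∀ f : Fin (k + 1) → ℝ, (∑ i, dl k i * f i) = f (Fin.last k) := sum_dl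
    clear_value Y P
    calc _ = a * (∑ i, pl k i * z i ^ 2) + (b * Y + c * s) * (∑ i, yv x i * z i)
          + (c * Y + d * s) * ∑ i, dl k i * z i := by
          rw [mul_sum, mul_sum, mul_sum, ← sum_add_distrib, ← sum_add_distrib]
          exact sum_congr rfl fun i _ => by ring
      _ = _ := by rw [hzero z, ← hP, ← hY]; ring
  rw [hq]
  have hP0 : 0 ≤ P := sum_nonneg fun i _ => mul_nonneg (by unfold pl dl; split_ifs <;> norm_num)
    (sq_nonneg _)
  have hCS : Y ^ 2 ≤ TT x * P := by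
    have h := sum_mul_sq_le_sq_mul_sq univ (yv x) (fun j => pl k j * z j)
    have e1 : ∑ j, yv x j * (pl k j * z j) = Y :=
      sum_congr rfl fun j _ => by rw [← mul_assoc, mul_comm (yv x j), pl_yv]
    have e2 : ∑ j, (pl k j * z j) ^ 2 = P :=
      sum_congr rfl fun j _ => by rw [mul_pow, sq (pl k j), pl_pl]
    rw [e1, e2] at h
    exact h
  have key : d * (a * P + b * Y ^ 2 + 2 * c * Y * s + d * s ^ 2)
      = (d * s + c * Y) ^ 2 + (a * d * P + (b * d - c ^ 2) * Y ^ 2) := by ring
  refine pos_of_mul_pos_right ?_ hd.le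
  rw [key]
  have hlow : P * min ((a + b * TT x) * d - c ^ 2 * TT x) (a * d)
      ≤ a * d * P + (b * d - c ^ 2) * Y ^ 2 := by
    rcases le_or_gt 0 (b * d - c ^ 2) with h | h
    · nlinarith [min_le_right ((a + b * TT x) * d - c ^ 2 * TT x) (a * d),
        mul_nonneg h (sq_nonneg Y)]
    · nlinarith [min_le_left ((a + b * TT x) * d - c ^ 2 * TT x) (a * d)]
  have hmin : 0 < min ((a + b * TT x) * d - c ^ 2 * TT x) (a * d) := lt_min hD (by positivity)
  rcases eq_or_lt_of_le hP0 with hPz | hPp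
  · have hY0 : Y = 0 := by
      have : Y ^ 2 = 0 := le_antisymm (by rw [← hPz, mul_zero] at hCS; exact hCS) (sq_nonneg Y)
      exact pow_eq_zero_iff two_ne_zero |>.1 this
    have hs : s ≠ 0 := by
      intro hs
      apply hz
      funext i
      by_cases h : i = Fin.last k
      · subst h; exact hs
      · have h0 := (sum_eq_zero_iff_of_nonneg (fun j _ => mul_nonneg
          (by unfold pl dl; split_ifs <;> norm_num) (sq_nonneg _))).1 hPz.symm i (mem_univ i)
        simp [pl, dl, h] at h0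
        simpa using h0
    have : 0 < (d * s + c * Y) ^ 2 := by rw [hY0, mul_zero, add_zero]; positivity
    nlinarith [hlow, hPz]
  · nlinarith [mul_pos hPp hmin, sq_nonneg (d * s + c * Y)]

lemma fderiv_pair {H : ℝ → ℝ → ℝ} {x : Fin (k + 1) → ℝ} {a b : ℝ}
    (h : HasFDerivAt (fun p : ℝ × ℝ => H p.1 p.2) (Data.L2 a b) (TT x, x (Fin.last k))) :
    ∃ T : (Fin (k + 1) → ℝ) →L[ℝ] ℝ, HasFDerivAt (fun y => H (TT y) (y (Fin.last k))) T x ∧
      ∀ j, T (Pi.single j 1) = 2 * a * yv x j + b * dl k j := by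
  have hy : ∀ i : Fin (k + 1), HasFDerivAt (fun y : Fin (k + 1) → ℝ => yv y i)
      (pl k i • ContinuousLinearMap.proj (R := ℝ) (φ := fun _ : Fin (k + 1) => ℝ) i) x :=
    fun i => (hasFDerivAt_apply (𝕜 := ℝ) (F' := fun _ : Fin (k + 1) => ℝ) i x).const_mul (pl k i)
  have hT : HasFDerivAt (fun y : Fin (k + 1) → ℝ => TT y)
      (∑ i, (2 * yv x i) • (pl k i • ContinuousLinearMap.proj (R := ℝ)
        (φ := fun _ : Fin (k + 1) => ℝ) i)) x := by
    have := HasFDerivAt.fun_sum (u := univ) (fun i (_ : i ∈ univ) => (hy i).pow 2)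
    refine this.congr_fderiv ?_
    exact sum_congr rfl fun i _ => by norm_num
  have hc : HasFDerivAt (fun y => H (TT y) (y (Fin.last k)))
      ((Data.L2 a b).comp ((∑ i, (2 * yv x i) • (pl k i • ContinuousLinearMap.proj (R := ℝ)
        (φ := fun _ : Fin (k + 1) => ℝ) i)).prod
        (ContinuousLinearMap.proj (R := ℝ) (φ := fun _ : Fin (k + 1) => ℝ) (Fin.last k)))) x :=
    HasFDerivAt.comp (g := fun p : ℝ × ℝ => H p.1 p.2) x h
      (hT.prodMk (hasFDerivAt_apply (𝕜 := ℝ) (F' := fun _ : Fin (k + 1) => ℝ) (Fin.last k) x))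
  refine ⟨_, hc, fun j => ?_⟩
  have e : (∑ i, (2 * yv x i) • (pl k i • ContinuousLinearMap.proj (R := ℝ)
        (φ := fun _ : Fin (k + 1) => ℝ) i)) (Pi.single j 1) = 2 * yv x j := by
    rw [ContinuousLinearMap.sum_apply, sum_eq_single j]
    · simp only [FunLike.coe_smul, Pi.smul_apply, ContinuousLinearMap.proj_apply,
        Pi.single_eq_same, smul_eq_mul, mul_one]
      rw [mul_comm _ (pl k j), ← mul_assoc, mul_comm (pl k j) 2, mul_assoc, pl_yv]
    · intro i _ hij; simp [hij]
    · simp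
  simp only [ContinuousLinearMap.comp_apply, ContinuousLinearMap.prod_apply,
    ContinuousLinearMap.proj_apply, e]
  simp [Data.L2, Pi.single_apply, dl, eq_comm]
  ring

lemma hess_pair {H Ht Hw Htt Htw Hww : ℝ → ℝ → ℝ} (x : Fin (k + 1) → ℝ)
    (h0 : ∀ t, 0 ≤ t → ∀ w, HasFDerivAt (fun p : ℝ × ℝ => H p.1 p.2)
      (Data.L2 (Ht t w) (Hw t w)) (t, w))
    (h1 : ∀ t, 0 ≤ t → ∀ w, HasFDerivAt (fun p : ℝ × ℝ => Ht p.1 p.2)
      (Data.L2 (Htt t w) (Htw t w)) (t, w))
    (h2 : ∀ t, 0 ≤ t → ∀ w, HasFDerivAt (fun p : ℝ × ℝ => Hw p.1 p.2)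
      (Data.L2 (Htw t w) (Hww t w)) (t, w)) :
    hess (fun y => H (TT y) (y (Fin.last k))) x
      = M4 x (2 * Ht (TT x) (x (Fin.last k))) (4 * Htt (TT x) (x (Fin.last k)))
          (2 * Htw (TT x) (x (Fin.last k))) (Hww (TT x) (x (Fin.last k))) := by
  ext i j
  simp only [hess, Matrix.of_apply]
  have first : (fun y => fderiv ℝ (fun y => H (TT y) (y (Fin.last k))) y (Pi.single i 1))
      = fun y => 2 * Ht (TT y) (y (Fin.last k)) * yv y i
        + Hw (TT y) (y (Fin.last k)) * dl k i := by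
    funext y
    obtain ⟨T, hT, hTj⟩ := fderiv_pair (h0 _ (TT_nonneg y) (y (Fin.last k)))
    rw [hT.fderiv, hTj]
  rw [first]
  obtain ⟨T1, hT1, hT1j⟩ := fderiv_pair (h1 _ (TT_nonneg x) (x (Fin.last k)))
  obtain ⟨T2, hT2, hT2j⟩ := fderiv_pair (h2 _ (TT_nonneg x) (x (Fin.last k)))
  have hy : HasFDerivAt (fun y : Fin (k + 1) → ℝ => yv y i)
      (pl k i • ContinuousLinearMap.proj (R := ℝ) (φ := fun _ : Fin (k + 1) => ℝ) i) x :=
    (hasFDerivAt_apply (𝕜 := ℝ) (F' := fun _ : Fin (k + 1) => ℝ) i x).const_mul (pl k i)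
  have hs := ((hT1.const_mul 2).fun_mul hy).fun_add (hT2.mul_const (dl k i))
  rw [hs.fderiv]
  simp only [FunLike.coe_add, FunLike.coe_smul, Pi.add_apply, Pi.smul_apply, smul_eq_mul,
    ContinuousLinearMap.proj_apply, hT1j, hT2j, Pi.single_apply, M4, Matrix.of_apply]
  split_ifs <;> ring

end

end Vale.Agent.P252
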