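import Vale.Agent.P252.Hessian

/-!
P252: assembly of the entire non-quadratic solution.
-/

namespace Vale.Agent.P252

open Finset Matrix

noncomputable section

variable {k : ℕ} (D : Data k)

lemma memI (t : ℝ) (ht : 0 ≤ t) : t ∈ Set.Ioi (-D.r) := D.mem_of_nonneg ht

/-- The entire solution. -/
def sol (x : Fin (k + 1) → ℝ) : ℝ := D.V (TT x) (x (Fin.last k))

lemma hess_sol (x : Fin (k + 1) → ℝ) :
    hess (sol D) x = M4 x (2 * D.Vt (TT x) (x (Fin.last k))) (4 * D.Vtt (TT x) (x (Fin.last k)))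
      (2 * D.Vtw (TT x) (x (Fin.last k))) (D.Vww (TT x) (x (Fin.last k))) :=
  hess_pair x (fun t ht _ => D.fderiv_V (memI D t ht)) (fun t ht _ => D.fderiv_Vt (memI D t ht))
    (fun t ht _ => D.fderiv_Vw (memI D t ht))

lemma dell_eq {t : ℝ} (ht : 0 ≤ t) :
    4 * (t * D.dell t) = D.ell t * (D.F t - 2 * t * D.ell t) := by
  obtain ⟨o1, -, -⟩ := D.ode' (memI D t ht)
  simp only [Data.dell, Data.ell]
  linarith

lemma schur_eq {t : ℝ} (ht : 0 ≤ t) (w : ℝ) :
    (2 * D.Vt t w + 4 * D.Vtt t w * t) * D.Vww t w - (2 * D.Vtw t w) ^ 2 * t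
      = D.phi t ^ 2 * D.ell t * (2 + D.F t) / (2 * D.V t w ^ 4) := by
  have hV := D.V_pos t w
  have hd := dell_eq D ht
  have hsq := D.V_sq t w
  simp only [Data.Vt, Data.Vtt, Data.Vtw, Data.Vww]
  generalize hp : D.phi t = p at hsq ⊢
  generalize hv : D.V t w = v at hV hsq ⊢
  obtain rfl : p = v ^ 2 - w ^ 2 := by linarith
  field_simp
  linear_combination (v ^ 2 * (v ^ 2 - w ^ 2) ^ 2) * hd

lemma hess_facts (hk : 9 ≤ k) (x : Fin (k + 1) → ℝ) :
    (hess (sol D) x).PosDef ∧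
      (hess (sol D) x).det = D.Psi (TT x) / D.V (TT x) (x (Fin.last k)) ^ (k + 3) := by
  set w := x (Fin.last k)
  set t := TT x with htdef
  have ht : 0 ≤ t := TT_nonneg x
  have hV := D.V_pos t w
  have hl := D.ell_pos (memI D t ht)
  have hF := D.F_pos (memI D t ht)
  have hp := D.phi_pos t
  have ha : 0 < 2 * D.Vt t w := by unfold Data.Vt; positivity
  have hd : 0 < D.Vww t w := by unfold Data.Vww; positivity
  have hs := schur_eq D ht w
  rw [hess_sol]
  refine ⟨M4_posDef x ha hd ?_, ?_⟩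
  · rw [← htdef, hs]; positivity
  · rw [M4_det (by omega) x ha.ne' hd.ne', ← htdef, hs]
    obtain ⟨m, rfl⟩ : ∃ m, k = m + 1 := ⟨k - 1, by omega⟩
    simp only [Data.Vt, Data.Psi, Nat.add_sub_cancel]
    have e1 : 2 * (D.ell t * D.phi t / (2 * D.V t w)) = D.ell t * D.phi t / D.V t w := by
      field_simp
    rw [e1, div_pow, mul_pow]
    field_simp
    ring

lemma w_eq (hk : 9 ≤ k) (y : Fin (k + 1) → ℝ) :
    (hess (sol D) y).det ^ (-((((k + 1 : ℕ) : ℝ) + 1) / (((k + 1 : ℕ) : ℝ) + 2)))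
      = D.Z (TT y) (y (Fin.last k)) := by
  rw [(hess_facts D hk y).2]
  set w := y (Fin.last k)
  set t := TT y
  have hV := D.V_pos t w
  have hP := D.Psi_pos (memI D t (TT_nonneg y))
  have e : -((((k + 1 : ℕ) : ℝ) + 1) / (((k + 1 : ℕ) : ℝ) + 2)) = Data.alp k := by
    unfold Data.alp; push_cast; ring
  rw [e, Real.div_rpow hP.le (by positivity), ← Real.rpow_natCast (D.V t w) (k + 3),
    ← Real.rpow_mul hV.le]
  have e2 : ((k + 3 : ℕ) : ℝ) * Data.alp k = -(((k + 2 : ℕ) : ℝ)) := by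
    unfold Data.alp; push_cast; field_simp
  rw [e2, Real.rpow_neg hV.le, Real.rpow_natCast, div_inv_eq_mul, Data.Z, Data.Wr, mul_comm]

lemma trace_zero (hk : 9 ≤ k) (t w : ℝ) (ht : 0 ≤ t) :
    let a := 2 * D.Vt t w
    let b := 4 * D.Vtt t w
    let c := 2 * D.Vtw t w
    let d := D.Vww t w
    let S := (a + b * t) * d - c ^ 2 * t
    let a' := 1 / a
    let b' := (c ^ 2 - b * d) / (a * S)
    let c' := -c / S
    let d' := (a + b * t) / S
    k * (a' * (2 * D.Zt t w)) + (a' * (4 * D.Ztt t w) + b' * (2 * D.Zt t w)) * t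
      + b' * (4 * D.Ztt t w) * t ^ 2 + 2 * c' * (2 * D.Ztw t w) * t + d' * D.Zww t w = 0 := by
  intro a b c d S a' b' c' d'
  have hV := D.V_pos t w
  have hl := D.ell_pos (memI D t ht)
  have hF := D.F_pos (memI D t ht)
  have hp := D.phi_pos t
  have ha : 0 < a := by simp only [a, Data.Vt]; positivity
  have hS : 0 < S := by simp only [S, a, b, c, d]; rw [schur_eq D ht w]; positivity
  have hSne := hS.ne'
  have key : (k - 1) * S * (2 * D.Zt t w) + a * (((2 * D.Zt t w) + 4 * D.Ztt t w * t) * d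
      + D.Zww t w * (a + b * t) - 2 * c * (2 * D.Ztw t w) * t) = 0 := by
    have hS' : S = D.phi t ^ 2 * D.ell t * (2 + D.F t) / (2 * D.V t w ^ 4) := schur_eq D ht w
    rw [hS']
    simp only [a, b, c, d, Data.Vt, Data.Vtt, Data.Vtw, Data.Vww, Data.Zt, Data.Ztt, Data.Ztw,
      Data.Zww, Data.A, Data.B]
    generalize D.Z t w = Zv
    have hd := dell_eq D ht
    obtain ⟨-, o2, -⟩ := D.ode' (memI D t ht)
    have hG : D.G t = 2 * D.ell t := by simp only [Data.ell]; ring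
    have hk0 : (0:ℝ) < k := by exact_mod_cast (show 0 < k by omega)
    rw [hG] at o2
    simp only [Data.QT, pp, e1, e2] at o2 ⊢
    have hsq := D.V_sq t w
    by_cases h0 : t = 0
    · subst h0
      have hF0 := D.F0
      have hQ0 : D.Q 0 = 0 := by
        rw [hF0] at o2
        have : (k:ℝ) * D.Q 0 = 0 := by linarith
        rcases mul_eq_zero.1 this with h | h
        · linarith
        · exact h
      rw [hF0, hQ0]
      generalize D.phi 0 = p at hp hsq ⊢
      generalize D.V 0 w = v at hV hsq ⊢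
      obtain rfl : p = v ^ 2 - w ^ 2 := by linarith
      field_simp
      ring
    · have eL : D.dell t = D.ell t * (D.F t - 2 * t * D.ell t) / (4 * t) := by
        rw [eq_div_iff (by simpa using h0)]; linarith
      have eQ : deriv D.Q t = (t * (2 * D.ell t) * ((D.Q t + ((k:ℝ) + 1) / k)
          * (D.Q t + ((k:ℝ) + 2) / (2 * k))) - (k:ℝ) / 2 * D.Q t * (2 + D.F t)) / (2 * t) := by
        rw [eq_div_iff (by simpa using h0)]; linarith
      rw [eL, eQ]
      generalize D.phi t = p at hp hsq ⊢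
      generalize D.V t w = v at hV hsq ⊢
      obtain rfl : p = v ^ 2 - w ^ 2 := by linarith
      field_simp
      ring
  have hane := ha.ne'
  simp only [a', b', c', d']
  rw [show (k:ℝ) * (1 / a * (2 * D.Zt t w)) + (1 / a * (4 * D.Ztt t w)
      + (c ^ 2 - b * d) / (a * S) * (2 * D.Zt t w)) * t
      + (c ^ 2 - b * d) / (a * S) * (4 * D.Ztt t w) * t ^ 2
      + 2 * (-c / S) * (2 * D.Ztw t w) * t + (a + b * t) / S * D.Zww t w
      = ((k - 1) * S * (2 * D.Zt t w) + a * (((2 * D.Zt t w) + 4 * D.Ztt t w * t) * d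
      + D.Zww t w * (a + b * t) - 2 * c * (2 * D.Ztw t w) * t)) / (a * S) from ?_, key, zero_div]
  field_simp
  simp only [S]
  ring

lemma am_eq (hk : 9 ≤ k) (x : Fin (k + 1) → ℝ) :
    ∑ i, ∑ j, ((hess (sol D) x).det • (hess (sol D) x)⁻¹) i j *
      hess (fun y => (hess (sol D) y).det ^
        (-((((k + 1 : ℕ) : ℝ) + 1) / (((k + 1 : ℕ) : ℝ) + 2)))) x i j = 0 := by
  have hw : (fun y => (hess (sol D) y).det ^
        (-((((k + 1 : ℕ) : ℝ) + 1) / (((k + 1 : ℕ) : ℝ) + 2))))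
      = fun y => D.Z (TT y) (y (Fin.last k)) := funext (w_eq D hk)
  set w := x (Fin.last k) with hwdef
  set t := TT x with htdef
  have ht : 0 ≤ t := TT_nonneg x
  have hV := D.V_pos t w
  have hl := D.ell_pos (memI D t ht)
  have hF := D.F_pos (memI D t ht)
  have hp := D.phi_pos t
  rw [hw, hess_pair (H := D.Z) x (fun s hs _ => D.fderiv_Z hk (memI D s hs))
    (fun s hs _ => D.fderiv_Zt hk (memI D s hs)) (fun s hs _ => D.fderiv_Zw hk (memI D s hs))]
  simp only [Matrix.smul_apply, smul_eq_mul, mul_assoc, ← mul_sum]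
  rw [hess_sol, M4_inverse x, trace_M4]
  · rw [← htdef, ← hwdef]
    have h := trace_zero D hk t w ht
    simp only at h
    rw [h, mul_zero]
  · rw [← htdef, ← hwdef]
    unfold Data.Vt; positivity
  · rw [← htdef, ← hwdef, schur_eq D ht w]; positivity

lemma contDiff_sol : ContDiff ℝ ((⊤ : ℕ∞) : WithTop ℕ∞) (sol D) := by
  have hT : ContDiff ℝ ((⊤ : ℕ∞) : WithTop ℕ∞) (fun x : Fin (k + 1) → ℝ => TT x) := by
    unfold TT yv
    fun_prop
  have hphi := D.contDiffOn_phi.comp_contDiff hT (fun x => memI D _ (TT_nonneg x))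
  unfold sol Data.V
  refine ContDiff.sqrt ?_ fun x => ?_
  · exact ((contDiff_apply ℝ ℝ (Fin.last k)).pow 2).add hphi
  · have := D.phi_pos (TT x); positivity

lemma not_quadratic : ¬ ∃ (A : Matrix (Fin (k + 1)) (Fin (k + 1)) ℝ)
    (b : Fin (k + 1) → ℝ) (c : ℝ),
      ∀ x, sol D x = 1 / 2 * (∑ i, ∑ j, A i j * x i * x j) + (∑ i, b i * x i) + c := by
  rintro ⟨A, b, c, h⟩
  have key : ∀ s : ℝ, Real.sqrt (s ^ 2 + 1)
      = 1 / 2 * (A (Fin.last k) (Fin.last k) * s * s) + b (Fin.last k) * s + c := by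
    intro s
    have hs := h (Pi.single (Fin.last k) s)
    have hT : TT (Pi.single (Fin.last k) s) = 0 := by
      refine sum_eq_zero fun i _ => ?_
      by_cases hi : i = Fin.last k
      · subst hi; simp [yv, pl, dl]
      · simp [yv, hi]
    simpa [sol, hT, Data.V, D.phi_zero, Pi.single_apply] using hs
  have h0 := key 0
  have h1 := key 1
  have hm := key (-1)
  have h2 := key 2
  norm_num at h0 h1 hm h2
  have q2 := Real.sq_sqrt (show (0:ℝ) ≤ 2 by norm_num)
  have q5 := Real.sq_sqrt (show (0:ℝ) ≤ 5 by norm_num)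
  have e : 4 * Real.sqrt 2 = 3 + Real.sqrt 5 := by linarith
  have e5 : Real.sqrt 5 = 4 * Real.sqrt 2 - 3 := by linarith
  rw [e5] at q5
  have h32 : Real.sqrt 2 = 3 / 2 := by nlinarith
  rw [h32] at q2
  norm_num at q2

/-- An entire smooth non-quadratic solution exists in every dimension at least ten. -/
lemma exists_solution (n : ℕ) (hn : 10 ≤ n) :
    ∃ u : (Fin n → ℝ) → ℝ, ContDiff ℝ ((⊤ : ℕ∞) : WithTop ℕ∞) u ∧
      (∀ x, (hess u x).PosDef) ∧
      (∀ x, ∑ i, ∑ j, ((hess u x).det • (hess u x)⁻¹) i j *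
          hess (fun y => (hess u y).det ^ (-(((n : ℝ) + 1) / ((n : ℝ) + 2)))) x i j = 0) ∧
      ¬ ∃ (A : Matrix (Fin n) (Fin n) ℝ) (b : Fin n → ℝ) (c : ℝ),
          ∀ x, u x = 1 / 2 * (∑ i, ∑ j, A i j * x i * x j) + (∑ i, b i * x i) + c := by
  obtain ⟨k, rfl⟩ : ∃ k, n = k + 1 := ⟨n - 1, by omega⟩
  obtain ⟨D⟩ := exists_data (k := k) (by omega)
  exact ⟨sol D, contDiff_sol D, fun x => (hess_facts D (by omega) x).1,
    fun x => am_eq D (by omega) x, not_quadratic D⟩

end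

end Vale.Agent.P252
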