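import Vale.Agent.P252.Series
import Vale.Agent.P252.Flow9

/-!
P252: the global profile, obtained by gluing the germ at the origin to a trajectory.
-/

namespace Vale.Agent.P252

open Set Filter Topology

noncomputable section

/-- Left shift of coefficients. -/
def tl (a : ℕ → ℝ) : ℕ → ℝ := fun n => a (n + 1)

lemma Bd.tl {A : ℝ} {a : ℕ → ℝ} (h : Bd A a) : Bd (A * RR) (tl a) := by
  intro n
  refine (h (n + 1)).trans ?_
  rw [mul_assoc]
  refine mul_le_mul_of_nonneg_left ?_ h.nonneg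
  unfold wt
  rw [← mul_div_assoc, pow_succ' RR n]
  apply div_le_div_of_nonneg_left (by unfold RR; positivity) (by positivity)
  push_cast
  nlinarith [Nat.cast_nonneg (α := ℝ) n]

lemma ev_eq_mul_tl {A : ℝ} {a : ℕ → ℝ} (h : Bd A a) (h0 : a 0 = 0) {t : ℝ} (ht : |t| < 1 / RR) :
    ev a t = t * ev (tl a) t := by
  rw [← ev_sh h.tl ht]
  congr 1
  funext n
  rcases n with _ | n
  · simp [sh, h0]
  · rfl

lemma ev_zero (a : ℕ → ℝ) : ev a 0 = a 0 := by
  unfold ev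
  rw [tsum_eq_single 0 (fun n hn => by simp [hn])]
  simp

lemma continuousAt_ev {A : ℝ} {a : ℕ → ℝ} (h : Bd A a) : ContinuousAt (ev a) 0 :=
  (contDiffOn_ev h).continuousOn.continuousAt
    (Ioo_mem_nhds (by unfold RR; norm_num) (by unfold RR; norm_num))

lemma first_coef {k : ℝ} (hk : 0 < k) :
    (2 + k) * cF k 1 = 2 * s0 k ∧ (2 + k) * cQ k 1 = e1 k * e2 k := by
  obtain ⟨z1, z2, z3⟩ := c_zero k
  obtain ⟨h1, h2, -⟩ := recursion k hk 1
  constructor
  · rw [show (2 + k) * cF k 1 = (2 * ((1:ℕ):ℝ) + k) * cF k 1 by push_cast; ring, h1]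
    simp [numF, cv, sh, Finset.sum_range_succ, one', z1, z2, z3]; ring
  · rw [show (2 + k) * cQ k 1 = (2 * ((1:ℕ):ℝ) + k) * cQ k 1 by push_cast; ring, h2]
    simp [numQ, cv, sh, Finset.sum_range_succ, one', z1, z2, z3]

/-- The germ in the variables of the vector field. -/
def germ (k t : ℝ) : ℝ × ℝ × ℝ := (t * sG k t, sQ k t, sF k t)

lemma germ_cone {k lo hi : ℝ} (hk : 9 ≤ k) (hlo0 : 0 ≤ lo)
    (hlo' : 0 < 2 * s0 k - lo * (e1 k * e2 k)) (hhi' : 0 < hi * (e1 k * e2 k) - 2 * s0 k)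
    {U : Set (ℝ × ℝ × ℝ)} (hU : U ∈ 𝓝 ((0:ℝ), (0:ℝ), (0:ℝ))) :
    ∃ r, 0 < r ∧ r ≤ 1 / RR ∧ (∀ t, |t| < r → 0 < sG k t ∧ -1 < sF k t) ∧
      ∀ t ∈ Ioo 0 r, germ k t ∈ U ∧ 0 < t * sG k t ∧ 0 < sQ k t ∧
        lo * sQ k t < sF k t ∧ sF k t < hi * sQ k t := by
  obtain ⟨bG, bQ, bF⟩ := bd_sol hk
  obtain ⟨z1, z2, z3⟩ := c_zero k
  obtain ⟨f1, q1⟩ := first_coef (k := k) (by linarith)
  have h2k : (0:ℝ) < 2 + k := by linarith
  have hq1 : 0 < cQ k 1 := by
    have : 0 < e1 k * e2 k := by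
      have : (0:ℝ) < k := by linarith
      unfold e1 e2; positivity
    nlinarith
  have hlo : lo * cQ k 1 < cF k 1 := by nlinarith
  have hhi : cF k 1 < hi * cQ k 1 := by
    refine lt_of_mul_lt_mul_left ?_ h2k.le
    rw [f1, mul_left_comm, q1]
    linarith
  have cG' := continuousAt_ev bG
  have cF' := continuousAt_ev bF
  have cQ' := continuousAt_ev bQ
  have cQt := continuousAt_ev bQ.tl
  have cFt := continuousAt_ev bF.tl
  have e0 : ∀ a : ℕ → ℝ, ev (tl a) 0 = a 1 := fun a => ev_zero _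
  have hcg : ContinuousAt (fun t => germ k t) 0 := (continuousAt_id.mul cG').prodMk (cQ'.prodMk cF')
  have hg0 : germ k 0 = ((0:ℝ), (0:ℝ), (0:ℝ)) := by
    simp only [germ]
    exact Prod.ext (zero_mul _) (Prod.ext ((ev_zero _).trans z2) ((ev_zero _).trans z3))
  have hUev : ∀ᶠ t in 𝓝 (0:ℝ), germ k t ∈ U := hcg.preimage_mem_nhds (by rw [hg0]; exact hU)
  have ev1 : ∀ᶠ t in 𝓝 (0:ℝ), 0 < ev (cG k) t ∧ -1 < ev (cF k) t ∧
      germ k t ∈ U ∧ 0 < ev (tl (cQ k)) t ∧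
      lo * ev (tl (cQ k)) t < ev (tl (cF k)) t ∧
      ev (tl (cF k)) t < hi * ev (tl (cQ k)) t := by
    refine (cG'.eventually_const_lt (by rw [ev_zero, z1]; norm_num)).and
      ((cF'.eventually_const_lt (by rw [ev_zero, z3]; norm_num)).and
      (hUev.and
      ((cQt.eventually_const_lt (by rw [e0]; exact hq1)).and
      ((ContinuousAt.eventually_lt (cQt.const_mul _) cFt (by rw [e0, e0]; exact hlo)).and
      (ContinuousAt.eventually_lt cFt (cQt.const_mul _) (by rw [e0, e0]; exact hhi))))))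
  obtain ⟨r, hr, hball⟩ := Metric.eventually_nhds_iff.1 ev1
  refine ⟨min r (1 / RR), lt_min hr (by unfold RR; norm_num), min_le_right _ _,
    fun t ht => ?_, fun t ht => ?_⟩
  · obtain ⟨a, b, -⟩ := hball (y := t) (by rw [Real.dist_eq, sub_zero]
                                           exact ht.trans_le (min_le_left _ _))
    exact ⟨a, b⟩
  · have htr : |t| < min r (1 / RR) := by rw [abs_of_pos ht.1]; exact ht.2
    obtain ⟨a, b, c, e, f, g⟩ := hball (y := t) (by rw [Real.dist_eq, sub_zero]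
                                                    exact htr.trans_le (min_le_left _ _))
    have htR : |t| < 1 / RR := htr.trans_le (min_le_right _ _)
    have eQ : sQ k t = t * ev (tl (cQ k)) t := ev_eq_mul_tl bQ z2 htR
    have eF : sF k t = t * ev (tl (cF k)) t := ev_eq_mul_tl bF z3 htR
    refine ⟨c, mul_pos ht.1 a, by rw [eQ]; exact mul_pos ht.1 e, ?_, ?_⟩
    · rw [eQ, eF]; nlinarith [ht.1]
    · rw [eQ, eF]; nlinarith [ht.1]

/-- For `k = 9` and for `k ≥ 10` there is an invariant set containing the germ. -/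
lemma exists_region {k : ℝ} (hk : k = 9 ∨ 10 ≤ k) :
    ∃ (R : Set (ℝ × ℝ × ℝ)) (r : ℝ), 0 < r ∧ r ≤ 1 / RR ∧
      (∀ t, |t| < r → 0 < sG k t ∧ -1 < sF k t) ∧ (∀ t ∈ Ioo 0 r, germ k t ∈ R) ∧
      (∀ v ∈ R, v ∈ box ∧ 0 < v.1 ∧ 0 < v.2.2) ∧
      ∀ y : ℝ → ℝ × ℝ × ℝ, (∀ x, HasDerivAt y (Xc k (y x)) x) →
        ∀ s, y s ∈ R → ∀ x, s ≤ x → y x ∈ R := by
  have cq : Continuous (fun v : ℝ × ℝ × ℝ => v.2.1) := continuous_fst.comp continuous_snd
  have cf : Continuous (fun v : ℝ × ℝ × ℝ => v.2.2) := continuous_snd.comp continuous_snd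
  rcases hk with rfl | hk
  · have hU : {v : ℝ × ℝ × ℝ | 11 / 2 * v.2.1 - 31 / 18 < v.2.2 ∧
        38 / 5 * v.2.1 - 13 / 45 < v.1 ∧ v.1 < 2 * v.2.2 - 11 / 2 * v.2.1 + 103 / 18}
        ∈ 𝓝 ((0:ℝ), (0:ℝ), (0:ℝ)) :=
      IsOpen.mem_nhds ((isOpen_lt ((cq.const_mul _).sub continuous_const) cf).inter
        ((isOpen_lt ((cq.const_mul _).sub continuous_const) continuous_fst).inter
        (isOpen_lt continuous_fst
          (((cf.const_mul _).sub (cq.const_mul _)).add continuous_const))))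
        (by norm_num)
    obtain ⟨r, hr, hrR, hpos, h⟩ := germ_cone (k := 9) (lo := 17 / 5) (hi := 45 / 11)
      (by norm_num) (by norm_num) (by norm_num [s0, e1, e2]) (by norm_num [s0, e1, e2]) hU
    refine ⟨{v | Good9 v}, r, hr, hrR, hpos, fun t ht => ?_, fun v hv => ?_,
      fun y hy s hs => good9_forever hy hs⟩
    · obtain ⟨⟨u1, u2, u3⟩, a, b, c, d⟩ := h t ht
      exact ⟨a, c, d, u1, u2, u3⟩
    · refine ⟨weak9_mem_box (weak9_of_good hv), hv.1, ?_⟩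
      obtain ⟨a, b, c, -⟩ := hv
      linarith
  · have hU : {v : ℝ × ℝ × ℝ | v.1 < 149 / 20 ∧ v.2.1 < 6 / 7}
        ∈ 𝓝 ((0:ℝ), (0:ℝ), (0:ℝ)) :=
      IsOpen.mem_nhds ((isOpen_lt continuous_fst continuous_const).inter
        (isOpen_lt cq continuous_const)) (by norm_num)
    have hl := lower_coef_pos hk (le_refl (0:ℝ))
    have hu := upper_coef_pos hk (le_refl (0:ℝ)) (by norm_num)
    simp only [sg, pp, mul_zero, add_zero, zero_add] at hl hu
    obtain ⟨r, hr, hrR, hpos, h⟩ := germ_cone (k := k) (lo := 87 / 25) (hi := 4)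
      (by linarith) (by norm_num) (by linarith) (by linarith) hU
    refine ⟨{v | Good v}, r, hr, hrR, hpos, fun t ht => ?_, fun v hv => ?_,
      fun y hy s hs => good_forever hk hy hs⟩
    · obtain ⟨⟨u1, u2⟩, a, b, c, d⟩ := h t ht
      exact ⟨a, u1, b, u2, c, d⟩
    · obtain ⟨a1, a2, a3, a4, a5, a6⟩ := hv
      exact ⟨good_mem_box ⟨a1.le, a2.le, a3.le, a4.le, a5.le, a6.le⟩, a1, by linarith⟩

/-- The equations of the profile at one point. -/
def OdeAt (k : ℝ) (G Q F : ℝ → ℝ) (t : ℝ) : Prop :=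
  ∃ dG dQ dF, HasDerivAt G dG t ∧ HasDerivAt Q dQ t ∧ HasDerivAt F dF t ∧
    4 * (t * dG) = G t * (F t - t * G t) ∧
    2 * (t * dQ) = t * G t * pp k (Q t) - k / 2 * Q t * (2 + F t) ∧
    2 * (t * dF) = (2 + F t) * (-(k * F t) / 2 + sg k (Q t) * (t * G t))

lemma germ_log_deriv {k : ℝ} (hk : 9 ≤ k) {x : ℝ} (hx : Real.exp x < 1 / RR) :
    HasDerivAt (fun x => germ k (Real.exp x)) (X k (germ k (Real.exp x))) x := by
  set t := Real.exp x with ht
  obtain ⟨dG, dQ, dF, hG, hQ, hF, o1, o2, o3⟩ :=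
    germ_ode hk (t := t) (by rwa [abs_of_pos (Real.exp_pos x)])
  have he := Real.hasDerivAt_exp x
  have h1 : HasDerivAt (fun s => s * sG k s) (1 * sG k t + t * dG) t := (hasDerivAt_id t).mul hG
  have := (h1.comp x he).prodMk ((hQ.comp x he).prodMk (hF.comp x he))
  refine this.congr_deriv ?_
  simp only [germ, X, ← ht]
  refine Prod.ext ?_ (Prod.ext ?_ ?_)
  · simp only; linear_combination (t / 4) * o1
  · simp only; linear_combination (1 / 2) * o2
  · simp only; linear_combination (1 / 2) * o3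

lemma germ_contDiffAt {k : ℝ} (hk : 9 ≤ k) {t : ℝ} (ht : |t| < 1 / RR) :
    ContDiffAt ℝ ((⊤ : ℕ∞) : WithTop ℕ∞) (sG k) t ∧ ContDiffAt ℝ ((⊤ : ℕ∞) : WithTop ℕ∞) (sQ k) t ∧
      ContDiffAt ℝ ((⊤ : ℕ∞) : WithTop ℕ∞) (sF k) t := by
  obtain ⟨bG, bQ, bF⟩ := bd_sol hk
  have hm : Ioo (-(1 / RR)) (1 / RR) ∈ 𝓝 t := Ioo_mem_nhds (abs_lt.1 ht).1 (abs_lt.1 ht).2
  exact ⟨(contDiffOn_ev bG).contDiffAt hm, (contDiffOn_ev bQ).contDiffAt hm,
    (contDiffOn_ev bF).contDiffAt hm⟩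

lemma exists_triple {k : ℝ} (hk' : k = 9 ∨ 10 ≤ k) : ∃ (G Q F : ℝ → ℝ) (r : ℝ), 0 < r ∧
    ContDiffOn ℝ ((⊤ : ℕ∞) : WithTop ℕ∞) G (Ioi (-r)) ∧
    ContDiffOn ℝ ((⊤ : ℕ∞) : WithTop ℕ∞) Q (Ioi (-r)) ∧
    ContDiffOn ℝ ((⊤ : ℕ∞) : WithTop ℕ∞) F (Ioi (-r)) ∧
    (∀ t ∈ Ioi (-r), 0 < G t ∧ -1 < F t ∧ OdeAt k G Q F t) ∧ G 0 = 1 ∧ F 0 = 0 := by
  obtain ⟨R, r, hr, hrR, hpos, hgood, hbox, hfor⟩ := exists_region hk'
  have hk : 9 ≤ k := by rcases hk' with h | h <;> linarith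
  obtain ⟨K, L, hK, hL⟩ := exists_Xc_lipschitz k
  set t0 := r / 2 with ht0
  have ht0p : 0 < t0 := by positivity
  obtain ⟨y, hy0, hy⟩ := exists_global hK hL (Real.log t0) (germ k t0)
  have hexp : Real.exp (Real.log t0) = t0 := Real.exp_log ht0p
  -- the trajectory agrees with the germ
  have agree : ∀ t ∈ Ioo 0 r, y (Real.log t) = germ k t := by
    intro t ht
    set a := min (Real.log t) (Real.log t0) - 1
    have hmem : ∀ x : ℝ, x < Real.log r → Real.exp x ∈ Ioo 0 r := fun x hx =>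
      ⟨Real.exp_pos x, by have := Real.exp_lt_exp.2 hx; rwa [Real.exp_log hr] at this⟩
    have h := ODE_solution_unique_of_mem_Ioo (v := fun _ => Xc k) (s := fun _ => univ)
      (a := a) (b := Real.log r) (f := y) (g := fun x => germ k (Real.exp x))
      (t₀ := Real.log t0) (fun _ _ => hK.lipschitzOnWith)
      ⟨by linarith [min_le_right (Real.log t) (Real.log t0)],
        Real.log_lt_log ht0p (by linarith)⟩
      (fun x _ => ⟨hy x, trivial⟩)
      (fun x hx => ?_) (by rw [hexp]; exact hy0)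
      ⟨by linarith [min_le_left (Real.log t) (Real.log t0)], Real.log_lt_log ht.1 ht.2⟩
    · rw [h]; simp only; rw [Real.exp_log ht.1]
    · refine ⟨?_, trivial⟩
      have hm := hmem x hx.2
      have hd := germ_log_deriv hk (hm.2.trans_le hrR)
      simp only [Xc]
      rwa [clamp_eq (hbox _ (hgood _ hm)).1]
  have ygood : ∀ x, y x ∈ R := by
    intro x
    rcases lt_or_ge x (Real.log t0) with hx | hx
    · have hm : Real.exp x ∈ Ioo 0 r := ⟨Real.exp_pos x, by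
        have := Real.exp_lt_exp.2 hx; rw [hexp] at this; linarith⟩
      rw [← Real.log_exp x, agree _ hm]
      exact hgood _ hm
    · exact hfor y hy _ (hy0 ▸ hgood t0 ⟨ht0p, by linarith⟩) x hx
  have hyX : ∀ x, HasDerivAt y (X k (y x)) x := by
    intro x
    have := hy x
    rwa [Xc, clamp_eq (hbox _ (ygood x)).1] at this
  have hys : ContDiffOn ℝ ((⊤ : ℕ∞) : WithTop ℕ∞) y univ :=
    contDiffOn_of_ode (contDiff_X k) isOpen_univ (fun x _ => hyX x)
  let G : ℝ → ℝ := fun t => if t < t0 then sG k t else (y (Real.log t)).1 / t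
  let Q : ℝ → ℝ := fun t => if t < t0 then sQ k t else (y (Real.log t)).2.1
  let F : ℝ → ℝ := fun t => if t < t0 then sF k t else (y (Real.log t)).2.2
  let G1 : ℝ → ℝ := fun t => (y (Real.log t)).1 / t
  let Q1 : ℝ → ℝ := fun t => (y (Real.log t)).2.1
  let F1 : ℝ → ℝ := fun t => (y (Real.log t)).2.2
  have near0 : ∀ t, t < r → -r < t → G =ᶠ[𝓝 t] sG k ∧ Q =ᶠ[𝓝 t] sQ k ∧ F =ᶠ[𝓝 t] sF k := by
    intro t h1 h2
    have hm : ∀ᶠ z in 𝓝 t, z < r := gt_mem_nhds h1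
    refine ⟨?_, ?_, ?_⟩ <;>
    · filter_upwards [hm] with z hz
      simp only [G, Q, F]
      split_ifs with h
      · rfl
      · have hz0 : 0 < z := lt_of_lt_of_le ht0p (not_lt.1 h)
        rw [agree z ⟨hz0, hz⟩]
        simp only [germ]
        try field_simp
  have nearp : ∀ t, 0 < t → G =ᶠ[𝓝 t] G1 ∧ Q =ᶠ[𝓝 t] Q1 ∧ F =ᶠ[𝓝 t] F1 := by
    intro t h1
    have hm : ∀ᶠ z in 𝓝 t, 0 < z := lt_mem_nhds h1
    refine ⟨?_, ?_, ?_⟩ <;>
    · filter_upwards [hm] with z hz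
      simp only [G, Q, F, G1, Q1, F1]
      split_ifs with h
      · rw [agree z ⟨hz, by linarith⟩]
        simp only [germ]
        try field_simp
      · rfl
  have smooth1 : ∀ t, 0 < t → ContDiffAt ℝ ((⊤ : ℕ∞) : WithTop ℕ∞) G1 t ∧
      ContDiffAt ℝ ((⊤ : ℕ∞) : WithTop ℕ∞) Q1 t ∧ ContDiffAt ℝ ((⊤ : ℕ∞) : WithTop ℕ∞) F1 t := by
    intro t ht
    have hy' : ContDiffAt ℝ ((⊤ : ℕ∞) : WithTop ℕ∞) (fun z => y (Real.log z)) t :=
      (hys.contDiffAt univ_mem).comp t (Real.contDiffAt_log.2 ht.ne')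
    exact ⟨(contDiffAt_fst.comp t hy').div contDiffAt_id ht.ne',
      contDiffAt_fst.comp t (contDiffAt_snd.comp t hy'),
      contDiffAt_snd.comp t (contDiffAt_snd.comp t hy')⟩
  have all : ∀ t ∈ Ioi (-r), (ContDiffAt ℝ ((⊤ : ℕ∞) : WithTop ℕ∞) G t ∧
      ContDiffAt ℝ ((⊤ : ℕ∞) : WithTop ℕ∞) Q t ∧ ContDiffAt ℝ ((⊤ : ℕ∞) : WithTop ℕ∞) F t) ∧
      0 < G t ∧ -1 < F t ∧ OdeAt k G Q F t := by
    intro t ht
    rcases lt_or_ge t r with h | h
    · obtain ⟨eG, eQ, eF⟩ := near0 t h ht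
      have habs : |t| < r := abs_lt.2 ⟨ht, h⟩
      obtain ⟨cG', cQ', cF'⟩ := germ_contDiffAt hk (habs.trans_le hrR)
      obtain ⟨dG, dQ, dF, hG, hQ, hF, o⟩ := germ_ode hk (habs.trans_le hrR)
      refine ⟨⟨cG'.congr_of_eventuallyEq eG, cQ'.congr_of_eventuallyEq eQ,
        cF'.congr_of_eventuallyEq eF⟩, by rw [eG.eq_of_nhds]; exact (hpos t habs).1,
        by rw [eF.eq_of_nhds]; exact (hpos t habs).2,
        dG, dQ, dF, hG.congr_of_eventuallyEq eG, hQ.congr_of_eventuallyEq eQ,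
        hF.congr_of_eventuallyEq eF, ?_⟩
      rw [eG.eq_of_nhds, eQ.eq_of_nhds, eF.eq_of_nhds]
      exact o
    · have htp : 0 < t := lt_of_lt_of_le hr h
      obtain ⟨eG, eQ, eF⟩ := nearp t htp
      obtain ⟨c1, c2, c3⟩ := smooth1 t htp
      have hd : HasDerivAt (fun z => y (Real.log z)) (t⁻¹ • X k (y (Real.log t))) t :=
        (hyX _).scomp t (Real.hasDerivAt_log htp.ne')
      obtain ⟨-, a1, a2⟩ := hbox _ (ygood (Real.log t))
      refine ⟨⟨c1.congr_of_eventuallyEq eG, c2.congr_of_eventuallyEq eQ,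
        c3.congr_of_eventuallyEq eF⟩, by rw [eG.eq_of_nhds]; exact div_pos a1 htp,
        by rw [eF.eq_of_nhds]; simp only [F1]; linarith, ?_⟩
      have d1 : HasDerivAt G1 ((t⁻¹ * (X k (y (Real.log t))).1 * t
          - (y (Real.log t)).1 * 1) / t ^ 2) t := by
        have dfst : HasDerivAt (fun z => (y (Real.log z)).1)
            (t⁻¹ * (X k (y (Real.log t))).1) t := hd.fst
        exact dfst.div (hasDerivAt_id t) htp.ne'
      have d2 : HasDerivAt Q1 (t⁻¹ * (X k (y (Real.log t))).2.1) t := hd.snd.fst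
      have d3 : HasDerivAt F1 (t⁻¹ * (X k (y (Real.log t))).2.2) t := hd.snd.snd
      refine ⟨_, _, _, d1.congr_of_eventuallyEq eG, d2.congr_of_eventuallyEq eQ,
        d3.congr_of_eventuallyEq eF, ?_⟩
      rw [eG.eq_of_nhds, eQ.eq_of_nhds, eF.eq_of_nhds]
      simp only [X, G1, Q1, F1]
      refine ⟨?_, ?_, ?_⟩ <;> field_simp <;> ring
  obtain ⟨g1, g2, g3⟩ := germ_zero k
  refine ⟨G, Q, F, r, hr, fun t ht => (all t ht).1.1.contDiffWithinAt,
    fun t ht => (all t ht).1.2.1.contDiffWithinAt, fun t ht => (all t ht).1.2.2.contDiffWithinAt,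
    fun t ht => (all t ht).2, ?_, ?_⟩
  · simp only [G, if_pos ht0p, g1]
  · simp only [F, if_pos ht0p, g3]

end

end Vale.Agent.P252
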