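import Vale.Agent.P252.Flow

/-!
P252: the power-series solution of the profile equation at the origin.
-/

namespace Vale.Agent.P252

open Finset Filter Topology

noncomputable section

/-- Cauchy product of coefficient sequences. -/
def cv (a b : ℕ → ℝ) : ℕ → ℝ := fun n => ∑ i ∈ range (n + 1), a i * b (n - i)

/-- Multiplication by the variable. -/
def sh (a : ℕ → ℝ) : ℕ → ℝ
  | 0 => 0
  | n + 1 => a n

/-- The constant series one. -/
def one' : ℕ → ℝ := fun n => if n = 0 then 1 else 0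

/-- The radius parameter. -/
def RR : ℝ := 1000000

/-- The majorant weight. -/
def wt (n : ℕ) : ℝ := RR ^ n / ((n : ℝ) + 1) ^ 2

/-- Coefficientwise bound. -/
def Bd (A : ℝ) (a : ℕ → ℝ) : Prop := ∀ n, |a n| ≤ A * wt n

lemma wt_pos (n : ℕ) : 0 < wt n := by unfold wt RR; positivity

lemma Bd.nonneg {A : ℝ} {a : ℕ → ℝ} (h : Bd A a) : 0 ≤ A := by
  have := (abs_nonneg _).trans (h 0)
  exact nonneg_of_mul_nonneg_left this (wt_pos 0)

lemma Bd.mono {A B : ℝ} {a : ℕ → ℝ} (h : Bd A a) (hAB : A ≤ B) : Bd B a :=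
  fun n => (h n).trans (mul_le_mul_of_nonneg_right hAB (wt_pos n).le)

lemma bd_one : Bd 1 one' := by
  intro n
  rcases n with _ | n
  · simp [one', wt]
  · simp only [one', Nat.succ_ne_zero, if_false, abs_zero, one_mul]
    exact (wt_pos _).le

lemma Bd.add {A B : ℝ} {a b : ℕ → ℝ} (ha : Bd A a) (hb : Bd B b) : Bd (A + B) (a + b) :=
  fun n => (abs_add_le _ _).trans (by rw [add_mul]; exact add_le_add (ha n) (hb n))

lemma Bd.smul {A : ℝ} {a : ℕ → ℝ} (ha : Bd A a) (c : ℝ) : Bd (|c| * A) (c • a) := by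
  intro n
  simp only [Pi.smul_apply, smul_eq_mul, abs_mul]
  rw [mul_assoc]
  exact mul_le_mul_of_nonneg_left (ha n) (abs_nonneg c)

lemma sum_inv_sq_le (n : ℕ) : ∑ i ∈ range n, 1 / ((i : ℝ) + 1) ^ 2 ≤ 2 - 1 / ((n : ℝ) + 1) + 0 ∧
    ∑ i ∈ range (n + 1), 1 / ((i : ℝ) + 1) ^ 2 ≤ 2 - 1 / ((n : ℝ) + 1) := by
  induction n with
  | zero => norm_num
  | succ n ih =>
    obtain ⟨-, ih⟩ := ih
    have h1 : (0:ℝ) < (n:ℝ) + 1 := by positivity
    have key : 1 / ((n:ℝ) + 1 + 1) ^ 2 ≤ 1 / ((n:ℝ) + 1) - 1 / ((n:ℝ) + 1 + 1) := by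
      have e : 1 / ((n:ℝ) + 1) - 1 / ((n:ℝ) + 1 + 1)
          = 1 / (((n:ℝ) + 1) * ((n:ℝ) + 1 + 1)) := by field_simp; ring
      rw [e]
      apply one_div_le_one_div_of_le (by positivity)
      nlinarith
    refine ⟨?_, ?_⟩
    · push_cast
      have : 1 / ((n:ℝ) + 1 + 1) ≤ 1 / ((n:ℝ) + 1) :=
        one_div_le_one_div_of_le h1 (by linarith)
      linarith
    · rw [sum_range_succ _ (n + 1)]
      push_cast
      linarith

lemma sum_conv_le (n : ℕ) :
    ∑ i ∈ range (n + 1), 1 / (((i : ℝ) + 1) ^ 2 * (((n - i : ℕ) : ℝ) + 1) ^ 2)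
      ≤ 16 / ((n : ℝ) + 1) ^ 2 := by
  have h1 : ∀ i ∈ range (n + 1), 1 / (((i : ℝ) + 1) ^ 2 * (((n - i : ℕ) : ℝ) + 1) ^ 2)
      ≤ 4 / ((n : ℝ) + 1) ^ 2 *
        (1 / ((i : ℝ) + 1) ^ 2 + 1 / (((n - i : ℕ) : ℝ) + 1) ^ 2) := by
    intro i hi
    have hin : i ≤ n := Nat.lt_succ_iff.1 (mem_range.1 hi)
    rw [Nat.cast_sub hin]
    have hx : (0:ℝ) < (i:ℝ) + 1 := by positivity
    have hy : (0:ℝ) < (n:ℝ) - i + 1 := by
      have : (i:ℝ) ≤ n := by exact_mod_cast hin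
      linarith
    generalize hxd : (i:ℝ) + 1 = x at hx ⊢
    generalize hyd : (n:ℝ) - i + 1 = y at hy ⊢
    have hn : (0:ℝ) < (n:ℝ) + 1 := by positivity
    have hle : (n:ℝ) + 1 ≤ x + y := by subst hxd hyd; linarith
    rw [div_add_div _ _ (by positivity) (by positivity), div_mul_div_comm,
      div_le_div_iff₀ (by positivity) (by positivity)]
    have h2 : ((n:ℝ) + 1) ^ 2 ≤ (x + y) ^ 2 := pow_le_pow_left₀ hn.le hle 2
    have hxy : 0 < x ^ 2 * y ^ 2 := by positivity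
    nlinarith [mul_nonneg hxy.le (sq_nonneg (x - y)), mul_le_mul_of_nonneg_left h2 hxy.le]
  refine (sum_le_sum h1).trans ?_
  rw [← mul_sum, sum_add_distrib]
  have h2 : ∑ i ∈ range (n + 1), 1 / ((i : ℝ) + 1) ^ 2 ≤ 2 := by
    have := (sum_inv_sq_le n).2
    have : 0 ≤ 1 / ((n:ℝ) + 1) := by positivity
    linarith
  have h3 : ∑ i ∈ range (n + 1), 1 / (((n - i : ℕ) : ℝ) + 1) ^ 2
      = ∑ i ∈ range (n + 1), 1 / ((i : ℝ) + 1) ^ 2 := by
    rw [← sum_range_reflect (fun i => 1 / ((i : ℝ) + 1) ^ 2) (n + 1)]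
    rfl
  rw [h3]
  calc 4 / ((n:ℝ) + 1) ^ 2 * _ ≤ 4 / ((n:ℝ) + 1) ^ 2 * (2 + 2) :=
        mul_le_mul_of_nonneg_left (add_le_add h2 h2) (by positivity)
    _ = 16 / ((n : ℝ) + 1) ^ 2 := by ring

lemma Bd.cv {A B : ℝ} {a b : ℕ → ℝ} (ha : Bd A a) (hb : Bd B b) :
    Bd (16 * A * B) (cv a b) := by
  intro n
  have hA := ha.nonneg
  have hB := hb.nonneg
  refine (abs_sum_le_sum_abs _ _).trans ?_
  calc ∑ i ∈ range (n + 1), |a i * b (n - i)|
      ≤ ∑ i ∈ range (n + 1), A * B * RR ^ n *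
          (1 / (((i : ℝ) + 1) ^ 2 * (((n - i : ℕ) : ℝ) + 1) ^ 2)) := by
        apply sum_le_sum
        intro i hi
        rw [abs_mul]
        refine (mul_le_mul (ha i) (hb (n - i)) (abs_nonneg _) (by have := wt_pos i; positivity)).trans
          (le_of_eq ?_)
        have hin : i ≤ n := Nat.lt_succ_iff.1 (mem_range.1 hi)
        have hp : RR ^ i * RR ^ (n - i) = RR ^ n := by rw [← pow_add, Nat.add_sub_cancel' hin]
        rw [← hp]
        unfold wt
        field_simp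
    _ ≤ A * B * RR ^ n * (16 / ((n : ℝ) + 1) ^ 2) := by
        rw [← mul_sum]
        exact mul_le_mul_of_nonneg_left (sum_conv_le n) (by unfold RR; positivity)
    _ = 16 * A * B * wt n := by unfold wt; ring

lemma Bd.sh {A : ℝ} {a : ℕ → ℝ} (ha : Bd A a) : Bd (4 * A / RR) (sh a) := by
  intro n
  have hA := ha.nonneg
  rcases n with _ | n
  · simp only [Vale.Agent.P252.sh, abs_zero]
    have := wt_pos 0
    unfold RR; positivity
  · refine (ha n).trans ?_
    unfold wt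
    have h : ((n:ℝ) + 1 + 1) ^ 2 ≤ 4 * ((n:ℝ) + 1) ^ 2 := by nlinarith [Nat.cast_nonneg (α := ℝ) n]
    have hR : (0:ℝ) < RR := by unfold RR; norm_num
    push_cast
    rw [pow_succ]
    field_simp
    have hRn : 0 ≤ RR ^ n * RR := by positivity
    rw [pow_succ RR n]
    linarith [mul_le_mul_of_nonneg_left h (mul_nonneg hA hRn)]

/-- Numerator of the recursion for the third unknown. -/
def numF (k : ℝ) (G q f : ℕ → ℝ) : ℕ → ℝ :=
  (-(k / 2)) • cv f f + sh (cv G (cv (s0 k • one' + be k • q) ((2:ℝ) • one' + f)))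

/-- Numerator of the recursion for the second unknown. -/
def numQ (k : ℝ) (G q f : ℕ → ℝ) : ℕ → ℝ :=
  sh (cv G (cv q q + ((e1 k + e2 k) • q + (e1 k * e2 k) • one'))) + (-(k / 2)) • cv q f

/-- Numerator of the recursion for the first unknown. -/
def numG (G f : ℕ → ℝ) : ℕ → ℝ := cv G f + (-1 : ℝ) • sh (cv G G)

/-- One step for the third unknown. -/
def stF (k : ℝ) (G q f : ℕ → ℝ) : ℕ → ℝ :=
  fun n => if n = 0 then 0 else numF k G q f n / (2 * n + k)

/-- One step for the second unknown. -/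
def stQ (k : ℝ) (G q f : ℕ → ℝ) : ℕ → ℝ :=
  fun n => if n = 0 then 0 else numQ k G q f n / (2 * n + k)

/-- One step for the first unknown. -/
def stG (G f : ℕ → ℝ) : ℕ → ℝ :=
  fun n => if n = 0 then 1 else numG G f n / (4 * n)

/-- The iteration. -/
def it (k : ℝ) : ℕ → (ℕ → ℝ) × (ℕ → ℝ) × (ℕ → ℝ)
  | 0 => (one', 0, 0)
  | n + 1 => (stG (it k n).1 (stF k (it k n).1 (it k n).2.1 (it k n).2.2),
      stQ k (it k n).1 (it k n).2.1 (it k n).2.2,
      stF k (it k n).1 (it k n).2.1 (it k n).2.2)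

/-- Coefficients of the first unknown. -/
def cG (k : ℝ) (n : ℕ) : ℝ := (it k (n + 1)).1 n

/-- Coefficients of the second unknown. -/
def cQ (k : ℝ) (n : ℕ) : ℝ := (it k (n + 1)).2.1 n

/-- Coefficients of the third unknown. -/
def cF (k : ℝ) (n : ℕ) : ℝ := (it k (n + 1)).2.2 n

/-- Agreement below an index. -/
def Ag (n : ℕ) (a b : ℕ → ℝ) : Prop := ∀ i < n, a i = b i

lemma Ag.cv {n : ℕ} {a b c d : ℕ → ℝ} (h : Ag n a b) (h' : Ag n c d) :
    Ag n (cv a c) (cv b d) := by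
  intro i hi
  refine sum_congr rfl fun j hj => ?_
  have : j ≤ i := Nat.lt_succ_iff.1 (mem_range.1 hj)
  rw [h j (by omega), h' (i - j) (by omega)]

lemma Ag.sh {n : ℕ} {a b : ℕ → ℝ} (h : Ag n a b) : Ag (n + 1) (sh a) (sh b) := by
  intro i hi
  rcases i with _ | i
  · rfl
  · exact h i (by omega)

lemma Ag.add {n : ℕ} {a b c d : ℕ → ℝ} (h : Ag n a b) (h' : Ag n c d) :
    Ag n (a + c) (b + d) := fun i hi => by simp [h i hi, h' i hi]

lemma Ag.smul {n : ℕ} {a b : ℕ → ℝ} (h : Ag n a b) (c : ℝ) :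
    Ag n (c • a) (c • b) := fun i hi => by simp [h i hi]

lemma Ag.cv_succ {n : ℕ} {a b c d : ℕ → ℝ} (h : Ag n a b) (h' : Ag (n + 1) c d)
    (hc : c 0 = 0) (hd : d 0 = 0) : Ag (n + 1) (Vale.Agent.P252.cv a c) (Vale.Agent.P252.cv b d) := by
  intro i hi
  refine sum_congr rfl fun j hj => ?_
  have : j ≤ i := Nat.lt_succ_iff.1 (mem_range.1 hj)
  by_cases hji : j = i
  · subst hji; simp [hc, hd]
  · rw [h j (by omega), h' (i - j) (by omega)]

lemma Ag.cv_succ' {n : ℕ} {a b c d : ℕ → ℝ} (h : Ag n a b) (h' : Ag n c d)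
    (ha : a 0 = 0) (hb : b 0 = 0) (hc : c 0 = 0) (hd : d 0 = 0) :
    Ag (n + 1) (Vale.Agent.P252.cv a c) (Vale.Agent.P252.cv b d) := by
  intro i hi
  refine sum_congr rfl fun j hj => ?_
  have : j ≤ i := Nat.lt_succ_iff.1 (mem_range.1 hj)
  by_cases hji : j = i
  · subst hji; simp [hc, hd]
  · by_cases hj0 : j = 0
    · subst hj0; simp [ha, hb]
    · rw [h j (by omega), h' (i - j) (by omega)]

lemma Ag.refl (n : ℕ) (a : ℕ → ℝ) : Ag n a a := fun _ _ => rfl

section Step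

variable {k : ℝ} {n : ℕ} {G G' q q' f f' : ℕ → ℝ}

lemma ag_stF (hG : Ag n G G') (hq : Ag n q q') (hf : Ag n f f') (h0 : f 0 = 0) (h0' : f' 0 = 0) :
    Ag (n + 1) (stF k G q f) (stF k G' q' f') := by
  intro i hi
  unfold stF
  split_ifs
  · rfl
  · rw [show numF k G q f i = numF k G' q' f' i from
      (((Ag.cv_succ' hf hf h0 h0' h0 h0').smul _).add
        ((hG.cv ((((Ag.refl n one').smul _).add (hq.smul _)).cv
          (((Ag.refl n one').smul _).add hf))).sh)) i hi]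

lemma ag_stQ (hG : Ag n G G') (hq : Ag n q q') (hf : Ag n f f') (h0 : f 0 = 0) (h0' : f' 0 = 0)
    (hq0 : q 0 = 0) (hq0' : q' 0 = 0) :
    Ag (n + 1) (stQ k G q f) (stQ k G' q' f') := by
  intro i hi
  unfold stQ
  split_ifs
  · rfl
  · rw [show numQ k G q f i = numQ k G' q' f' i from
      ((hG.cv ((hq.cv hq).add ((hq.smul _).add ((Ag.refl n one').smul _)))).sh.add
        ((Ag.cv_succ' hq hf hq0 hq0' h0 h0').smul _)) i hi]

lemma ag_stG (hG : Ag n G G') (hf : Ag (n + 1) f f') (h0 : f 0 = 0) (h0' : f' 0 = 0) :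
    Ag (n + 1) (stG G f) (stG G' f') := by
  intro i hi
  unfold stG
  split_ifs
  · rfl
  · rw [show numG G f i = numG G' f' i from
      ((hG.cv_succ hf h0 h0').add ((hG.cv hG).sh.smul _)) i hi]

end Step

lemma it_zero (k : ℝ) : ∀ n, (it k n).1 0 = 1 ∧ (it k n).2.1 0 = 0 ∧ (it k n).2.2 0 = 0
  | 0 => ⟨by simp [it, one'], rfl, rfl⟩
  | n + 1 => ⟨by simp [it, stG], by simp [it, stQ], by simp [it, stF]⟩

lemma it_stable (k : ℝ) : ∀ n, Ag n (it k n).1 (it k (n + 1)).1 ∧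
    Ag n (it k n).2.1 (it k (n + 1)).2.1 ∧ Ag n (it k n).2.2 (it k (n + 1)).2.2
  | 0 => ⟨fun i hi => absurd hi (Nat.not_lt_zero i), fun i hi => absurd hi (Nat.not_lt_zero i),
      fun i hi => absurd hi (Nat.not_lt_zero i)⟩
  | n + 1 => by
    obtain ⟨h1, h2, h3⟩ := it_stable k n
    obtain ⟨-, z2, z3⟩ := it_zero k n
    obtain ⟨-, w2, w3⟩ := it_zero k (n + 1)
    have hF := ag_stF (k := k) h1 h2 h3 z3 w3
    exact ⟨ag_stG h1 hF (by simp [stF]) (by simp [stF]), ag_stQ h1 h2 h3 z3 w3 z2 w2, hF⟩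

lemma sol_agree (k : ℝ) : ∀ n, Ag n (it k n).1 (cG k) ∧ Ag n (it k n).2.1 (cQ k) ∧
    Ag n (it k n).2.2 (cF k)
  | 0 => ⟨fun i hi => absurd hi (Nat.not_lt_zero i), fun i hi => absurd hi (Nat.not_lt_zero i),
      fun i hi => absurd hi (Nat.not_lt_zero i)⟩
  | n + 1 => by
    obtain ⟨h1, h2, h3⟩ := sol_agree k n
    obtain ⟨s1, s2, s3⟩ := it_stable k n
    refine ⟨fun i hi => ?_, fun i hi => ?_, fun i hi => ?_⟩ <;>
      rcases Nat.lt_succ_iff_lt_or_eq.1 hi with hi' | rfl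
    · rw [← s1 i hi', h1 i hi']
    · rfl
    · rw [← s2 i hi', h2 i hi']
    · rfl
    · rw [← s3 i hi', h3 i hi']
    · rfl

lemma c_zero (k : ℝ) : cG k 0 = 1 ∧ cQ k 0 = 0 ∧ cF k 0 = 0 := it_zero k 1

lemma sol_fix (k : ℝ) : cF k = stF k (cG k) (cQ k) (cF k) ∧
    cQ k = stQ k (cG k) (cQ k) (cF k) ∧ cG k = stG (cG k) (cF k) := by
  obtain ⟨-, z2, z3⟩ := c_zero k
  have hF : cF k = stF k (cG k) (cQ k) (cF k) := by
    funext n
    obtain ⟨h1, h2, h3⟩ := sol_agree k n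
    exact ag_stF h1 h2 h3 (it_zero k n).2.2 z3 n (Nat.lt_succ_self n)
  refine ⟨hF, ?_, ?_⟩
  · funext n
    obtain ⟨h1, h2, h3⟩ := sol_agree k n
    exact ag_stQ h1 h2 h3 (it_zero k n).2.2 z3 (it_zero k n).2.1 z2 n (Nat.lt_succ_self n)
  · funext n
    obtain ⟨h1, h2, h3⟩ := sol_agree k n
    have h := ag_stF (k := k) h1 h2 h3 (it_zero k n).2.2 z3
    rw [← hF] at h
    exact ag_stG h1 h (by simp [stF]) z3 n (Nat.lt_succ_self n)

lemma bd_step {k : ℝ} (hk : 9 ≤ k) {G q f : ℕ → ℝ} (hG : Bd 1 G) (hq : Bd (1 / 32) q)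
    (hf : Bd (1 / 32) f) :
    Bd 1 (stG G (stF k G q f)) ∧ Bd (1 / 32) (stQ k G q f) ∧ Bd (1 / 32) (stF k G q f) := by
  have h0 : (0:ℝ) < k := by linarith
  have hs : |s0 k| ≤ 2 := by
    rw [abs_of_nonneg (by unfold s0; positivity)]
    unfold s0; rw [div_le_iff₀ (by positivity)]; linarith
  have hb : |be k| ≤ 2 := by
    rw [abs_of_nonneg (by unfold be; positivity)]
    unfold be; rw [div_le_iff₀ (by positivity)]; linarith
  have h12 : |e1 k + e2 k| ≤ 2 := by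
    rw [abs_of_nonneg (by unfold e1 e2; positivity)]
    have a : e1 k ≤ 10 / 9 := by unfold e1; rw [div_le_iff₀ h0]; linarith
    have b : e2 k ≤ 11 / 18 := by unfold e2; rw [div_le_iff₀ (by positivity)]; linarith
    linarith
  have hp : |e1 k * e2 k| ≤ 1 := by
    rw [abs_of_nonneg (by unfold e1 e2; positivity)]
    have a : e1 k ≤ 10 / 9 := by unfold e1; rw [div_le_iff₀ h0]; linarith
    have b : e2 k ≤ 11 / 18 := by unfold e2; rw [div_le_iff₀ (by positivity)]; linarith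
    exact (mul_le_mul a b (by unfold e2; positivity) (by norm_num)).trans (by norm_num)
  have hsig : Bd 4 (s0 k • one' + be k • q) := ((bd_one.smul _).add (hq.smul _)).mono (by linarith)
  have htwo : Bd 3 ((2:ℝ) • one' + f) := ((bd_one.smul _).add hf).mono (by norm_num)
  have hNF : Bd (k * (1 / 128) + 1 / 16) (numF k G q f) := by
    refine ((((hf.cv hf).smul _)).add ((hG.cv (hsig.cv htwo)).sh)).mono ?_
    rw [abs_neg, abs_of_pos (by positivity)]
    unfold RR; linarith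
  have hNQ : Bd (k * (1 / 128) + 1 / 16) (numQ k G q f) := by
    refine (((hG.cv (((hq.cv hq).add ((hq.smul _).add (bd_one.smul _))).mono
      (B := 3) (by linarith))).sh).add (((hq.cv hf).smul _))).mono ?_
    rw [abs_neg, abs_of_pos (by positivity)]
    unfold RR; linarith
  have hdiv : ∀ (num : ℕ → ℝ), Bd (k * (1 / 128) + 1 / 16) num →
      Bd (1 / 32) (fun n => if n = 0 then 0 else num n / (2 * n + k)) := by
    intro num h n
    by_cases hn : n = 0
    · simp [hn, (wt_pos 0).le]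
    · simp only [if_neg hn]
      rw [abs_div, abs_of_pos (show (0:ℝ) < 2 * n + k by positivity),
        div_le_iff₀ (by positivity)]
      refine (h n).trans ?_
      have hn1 : (1:ℝ) ≤ n := by exact_mod_cast Nat.one_le_iff_ne_zero.2 hn
      nlinarith [wt_pos n]
  have hF := hdiv _ hNF
  refine ⟨?_, hdiv _ hNQ, hF⟩
  intro n
  by_cases hn : n = 0
  · simp [stG, hn, wt]
  · simp only [stG, if_neg hn]
    have hn1 : (1:ℝ) ≤ n := by exact_mod_cast Nat.one_le_iff_ne_zero.2 hn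
    rw [abs_div, abs_of_pos (show (0:ℝ) < 4 * n by positivity), div_le_iff₀ (by positivity)]
    refine (((hG.cv hF).add ((hG.cv hG).sh.smul _)) n).trans ?_
    rw [abs_neg, abs_one]
    unfold RR
    nlinarith [wt_pos n]

lemma bd_it {k : ℝ} (hk : 9 ≤ k) : ∀ n, Bd 1 (it k n).1 ∧ Bd (1 / 32) (it k n).2.1 ∧
    Bd (1 / 32) (it k n).2.2
  | 0 => ⟨bd_one, fun i => by simp [it, (wt_pos i).le], fun i => by simp [it, (wt_pos i).le]⟩
  | n + 1 => by
    obtain ⟨a, b, c⟩ := bd_it hk n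
    exact bd_step hk a b c

lemma bd_sol {k : ℝ} (hk : 9 ≤ k) : Bd 1 (cG k) ∧ Bd (1 / 32) (cQ k) ∧ Bd (1 / 32) (cF k) :=
  ⟨fun n => (bd_it hk (n + 1)).1 n, fun n => (bd_it hk (n + 1)).2.1 n,
    fun n => (bd_it hk (n + 1)).2.2 n⟩

lemma recursion (k : ℝ) (hk : 0 < k) (n : ℕ) :
    (2 * n + k) * cF k n = numF k (cG k) (cQ k) (cF k) n ∧
    (2 * n + k) * cQ k n = numQ k (cG k) (cQ k) (cF k) n ∧
    4 * n * cG k n = numG (cG k) (cF k) n := by
  obtain ⟨hF, hQ, hG⟩ := sol_fix k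
  obtain ⟨z1, z2, z3⟩ := c_zero k
  rcases Nat.eq_zero_or_pos n with rfl | hn
  · simp [numF, numQ, numG, cv, sh, z2, z3]
  · have hn' : n ≠ 0 := hn.ne'
    have hnr : (0:ℝ) < 2 * n + k := by positivity
    refine ⟨?_, ?_, ?_⟩
    · conv_lhs => rw [hF]
      simp [stF, hn']; field_simp
    · conv_lhs => rw [hQ]
      simp [stQ, hn']; field_simp
    · conv_lhs => rw [hG]
      simp [stG, hn']; field_simp

/-- The sum of a coefficient sequence. -/
def ev (a : ℕ → ℝ) (t : ℝ) : ℝ := ∑' n, a n * t ^ n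

lemma norm_term_le {A : ℝ} {a : ℕ → ℝ} (h : Bd A a) (t : ℝ) (n : ℕ) :
    ‖a n * t ^ n‖ ≤ A * (RR * |t|) ^ n := by
  rw [Real.norm_eq_abs, abs_mul, abs_pow, mul_pow, ← mul_assoc]
  refine mul_le_mul_of_nonneg_right ((h n).trans ?_) (by positivity)
  refine mul_le_mul_of_nonneg_left ?_ h.nonneg
  unfold wt
  apply div_le_self (by unfold RR; positivity)
  nlinarith [Nat.cast_nonneg (α := ℝ) n]

lemma RR_mul_lt {t : ℝ} (ht : |t| < 1 / RR) : RR * |t| < 1 := by
  rw [lt_div_iff₀ (by unfold RR; norm_num)] at ht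
  linarith [mul_comm RR |t|]

lemma summable_norm_ev {A : ℝ} {a : ℕ → ℝ} (h : Bd A a) {t : ℝ} (ht : |t| < 1 / RR) :
    Summable fun n => ‖a n * t ^ n‖ :=
  Summable.of_nonneg_of_le (fun n => norm_nonneg _) (norm_term_le h t)
    ((summable_geometric_of_lt_one (by unfold RR; positivity) (RR_mul_lt ht)).mul_left A)

lemma summable_ev {A : ℝ} {a : ℕ → ℝ} (h : Bd A a) {t : ℝ} (ht : |t| < 1 / RR) :
    Summable fun n => a n * t ^ n := (summable_norm_ev h ht).of_norm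

lemma ev_add {A B : ℝ} {a b : ℕ → ℝ} (ha : Bd A a) (hb : Bd B b) {t : ℝ} (ht : |t| < 1 / RR) :
    ev (a + b) t = ev a t + ev b t := by
  unfold ev
  rw [← (summable_ev ha ht).tsum_add (summable_ev hb ht)]
  exact tsum_congr fun n => by simp [add_mul]

lemma ev_smul (a : ℕ → ℝ) (c t : ℝ) : ev (c • a) t = c * ev a t := by
  unfold ev
  rw [← tsum_mul_left]
  exact tsum_congr fun n => by simp [mul_assoc]

lemma ev_one (t : ℝ) : ev one' t = 1 := by
  unfold ev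
  rw [tsum_eq_single 0 (fun n hn => by simp [one', hn])]
  simp [one']

lemma ev_sh {A : ℝ} {a : ℕ → ℝ} (ha : Bd A a) {t : ℝ} (ht : |t| < 1 / RR) :
    ev (sh a) t = t * ev a t := by
  unfold ev
  rw [(summable_ev ha.sh ht).tsum_eq_zero_add, ← tsum_mul_left]
  simp only [sh, zero_mul, zero_add]
  exact tsum_congr fun n => by rw [pow_succ]; ring

lemma ev_cv {A B : ℝ} {a b : ℕ → ℝ} (ha : Bd A a) (hb : Bd B b) {t : ℝ} (ht : |t| < 1 / RR) :
    ev (cv a b) t = ev a t * ev b t := by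
  unfold ev
  rw [tsum_mul_tsum_eq_tsum_sum_range_of_summable_norm (summable_norm_ev ha ht)
    (summable_norm_ev hb ht)]
  refine tsum_congr fun n => ?_
  rw [cv, sum_mul]
  refine sum_congr rfl fun i hi => ?_
  have hin : i ≤ n := Nat.lt_succ_iff.1 (mem_range.1 hi)
  calc a i * b (n - i) * t ^ n = a i * b (n - i) * (t ^ i * t ^ (n - i)) := by
        rw [← pow_add, Nat.add_sub_cancel' hin]
    _ = a i * t ^ i * (b (n - i) * t ^ (n - i)) := by ring

lemma contDiffOn_ev {A : ℝ} {a : ℕ → ℝ} (ha : Bd A a) :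
    ContDiffOn ℝ ((⊤ : ℕ∞) : WithTop ℕ∞) (ev a) (Set.Ioo (-(1 / RR)) (1 / RR)) := by
  intro t ht
  refine ContDiffAt.contDiffWithinAt ?_
  set p := FormalMultilinearSeries.ofScalars ℝ a
  have habs : |t| < 1 / RR := abs_lt.2 ⟨ht.1, ht.2⟩
  obtain ⟨r, hr1, hr2⟩ := exists_between habs
  have hr0 : 0 ≤ r := (abs_nonneg t).trans hr1.le
  have hrad : (r.toNNReal : ENNReal) ≤ p.radius := by
    refine p.le_radius_of_bound A fun n => ?_
    rw [FormalMultilinearSeries.ofScalars_norm, Real.coe_toNNReal _ hr0]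
    have := norm_term_le ha r n
    rw [Real.norm_eq_abs, abs_mul, abs_pow, abs_of_nonneg hr0] at this
    refine this.trans (mul_le_of_le_one_right ha.nonneg ?_)
    have : RR * r < 1 := by
      have := RR_mul_lt (t := r) (by rwa [abs_of_nonneg hr0])
      rwa [abs_of_nonneg hr0] at this
    exact pow_le_one₀ (by unfold RR; positivity) this.le
  have hpos : (0 : ENNReal) < p.radius :=
    lt_of_lt_of_le (by simp only [ENNReal.coe_pos, Real.toNNReal_pos]
                       exact lt_of_le_of_lt (abs_nonneg t) hr1) hrad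
  have hfps := p.hasFPowerSeriesOnBall hpos
  have hmem : t ∈ Metric.eball (0:ℝ) p.radius := by
    refine lt_of_lt_of_le ?_ hrad
    rw [edist_dist, Real.dist_eq, sub_zero]
    exact (ENNReal.ofReal_lt_ofReal_iff (lt_of_le_of_lt (abs_nonneg t) hr1)).2 hr1
  have hsum : p.sum = ev a := by
    funext s
    unfold FormalMultilinearSeries.sum ev
    exact tsum_congr fun n => by
      rw [FormalMultilinearSeries.ofScalars_apply_eq, smul_eq_mul]
  rw [← hsum]
  exact (hfps.analyticAt_of_mem hmem).contDiffAt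

lemma deriv_ev {A : ℝ} {a : ℕ → ℝ} (ha : Bd A a) {t : ℝ} (ht : |t| < 1 / RR) :
    ∃ d, HasDerivAt (ev a) d t ∧ t * d = ev (fun n => (n : ℝ) * a n) t := by
  obtain ⟨r, hr1, hr2⟩ := exists_between ht
  have hr0 : 0 < r := lt_of_le_of_lt (abs_nonneg t) hr1
  have hq : RR * r < 1 := by
    have := RR_mul_lt (t := r) (by rwa [abs_of_pos hr0])
    rwa [abs_of_pos hr0] at this
  have hnorm : ‖RR * r‖ < 1 := by
    rw [Real.norm_eq_abs, abs_of_nonneg (mul_nonneg (by norm_num [RR]) hr0.le)]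
    exact hq
  have hgeo : Summable fun n : ℕ => ((n : ℝ) ^ 1 * (RR * r) ^ n) :=
    summable_pow_mul_geometric_of_norm_lt_one (R := ℝ) 1 hnorm
  have hu : Summable fun n : ℕ => A / r * ((n : ℝ) ^ 1 * (RR * r) ^ n) := hgeo.mul_left (A / r)
  have hder : ∀ (n : ℕ) (y : ℝ), y ∈ Set.Ioo (-r) r →
      HasDerivAt (fun z : ℝ => a n * z ^ n) (a n * ((n : ℝ) * y ^ (n - 1))) y :=
    fun n y _ => (hasDerivAt_pow n y).const_mul (a n)
  have hbound : ∀ (n : ℕ) (y : ℝ), y ∈ Set.Ioo (-r) r →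
      ‖a n * ((n : ℝ) * y ^ (n - 1))‖ ≤ A / r * ((n : ℝ) ^ 1 * (RR * r) ^ n) := by
    intro n y hy
    rcases n with _ | n
    · simp
    · rw [Nat.add_sub_cancel, Real.norm_eq_abs, abs_mul, abs_mul, abs_pow, Nat.abs_cast, pow_one]
      have hy' : |y| ≤ r := (abs_lt.2 ⟨hy.1, hy.2⟩).le
      have hb := norm_term_le ha r (n + 1)
      rw [Real.norm_eq_abs, abs_mul, abs_pow, abs_of_pos hr0] at hb
      have h1 : |a (n + 1)| * |y| ^ n ≤ |a (n + 1)| * r ^ n :=
        mul_le_mul_of_nonneg_left (pow_le_pow_left₀ (abs_nonneg y) hy' n) (abs_nonneg _)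
      have hnn : (0:ℝ) ≤ ((n + 1 : ℕ) : ℝ) := Nat.cast_nonneg _
      calc |a (n + 1)| * (((n + 1 : ℕ) : ℝ) * |y| ^ n)
          = ((n + 1 : ℕ) : ℝ) * (|a (n + 1)| * |y| ^ n) := by ring
        _ ≤ ((n + 1 : ℕ) : ℝ) * (|a (n + 1)| * r ^ n) := mul_le_mul_of_nonneg_left h1 hnn
        _ = ((n + 1 : ℕ) : ℝ) * ((|a (n + 1)| * r ^ (n + 1)) / r) := by
            rw [pow_succ r n]; field_simp
        _ ≤ ((n + 1 : ℕ) : ℝ) * ((A * (RR * r) ^ (n + 1)) / r) :=
            mul_le_mul_of_nonneg_left (div_le_div_of_nonneg_right hb hr0.le) hnn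
        _ = A / r * (((n + 1 : ℕ) : ℝ) * (RR * r) ^ (n + 1)) := by ring
  have hsum0 : Summable fun n : ℕ => a n * (0:ℝ) ^ n :=
    summable_ev ha (by rw [abs_zero]; unfold RR; norm_num)
  have hy0 : (0:ℝ) ∈ Set.Ioo (-r) r := ⟨neg_lt_zero.2 hr0, hr0⟩
  have hyt : t ∈ Set.Ioo (-r) r := ⟨(abs_lt.1 hr1).1, (abs_lt.1 hr1).2⟩
  refine ⟨∑' n : ℕ, a n * ((n : ℝ) * t ^ (n - 1)),
    hasDerivAt_tsum_of_isPreconnected (g := fun n z => a n * z ^ n) hu isOpen_Ioo
      (convex_Ioo (-r) r).isPreconnected hder hbound hy0 hsum0 hyt, ?_⟩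
  unfold ev
  rw [← tsum_mul_left]
  refine tsum_congr fun n => ?_
  rcases n with _ | n
  · simp
  · rw [Nat.add_sub_cancel, pow_succ]; ring

/-- The germ of the first unknown. -/
def sG (k : ℝ) : ℝ → ℝ := ev (cG k)

/-- The germ of the second unknown. -/
def sQ (k : ℝ) : ℝ → ℝ := ev (cQ k)

/-- The germ of the third unknown. -/
def sF (k : ℝ) : ℝ → ℝ := ev (cF k)

lemma germ_zero (k : ℝ) : sG k 0 = 1 ∧ sQ k 0 = 0 ∧ sF k 0 = 0 := by
  obtain ⟨a, b, c⟩ := c_zero k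
  refine ⟨?_, ?_, ?_⟩ <;>
  · simp only [sG, sQ, sF, ev]
    rw [tsum_eq_single 0 (fun n hn => by simp [hn])]
    simp [a, b, c]

lemma germ_ode {k : ℝ} (hk : 9 ≤ k) {t : ℝ} (ht : |t| < 1 / RR) :
    ∃ dG dQ dF, HasDerivAt (sG k) dG t ∧ HasDerivAt (sQ k) dQ t ∧ HasDerivAt (sF k) dF t ∧
      4 * (t * dG) = sG k t * (sF k t - t * sG k t) ∧
      2 * (t * dQ) = t * sG k t * pp k (sQ k t) - k / 2 * sQ k t * (2 + sF k t) ∧
      2 * (t * dF) = (2 + sF k t) * (-(k * sF k t) / 2 + sg k (sQ k t) * (t * sG k t)) := by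
  obtain ⟨bG, bQ, bF⟩ := bd_sol hk
  obtain ⟨dG, hG, eG⟩ := deriv_ev bG ht
  obtain ⟨dQ, hQ, eQ⟩ := deriv_ev bQ ht
  obtain ⟨dF, hF, eF⟩ := deriv_ev bF ht
  refine ⟨dG, dQ, dF, hG, hQ, hF, ?_, ?_, ?_⟩
  · have : 4 * ev (fun n => (n:ℝ) * cG k n) t = ev (numG (cG k) (cF k)) t := by
      unfold ev; rw [← tsum_mul_left]
      exact tsum_congr fun n => by rw [← (recursion k (by linarith) n).2.2]; ring
    rw [eG, this]
    unfold numG
    rw [ev_add (bG.cv bF) ((bG.cv bG).sh.smul _) ht, ev_cv bG bF ht, ev_smul,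
      ev_sh (bG.cv bG) ht, ev_cv bG bG ht]
    unfold sG sF; ring
  · have hs := summable_ev bQ ht
    have : 2 * ev (fun n => (n:ℝ) * cQ k n) t =
        ev (numQ k (cG k) (cQ k) (cF k)) t - k * ev (cQ k) t := by
      have i2 := bQ.smul (e1 k + e2 k)
      have i3 := bd_one.smul (e1 k * e2 k)
      have hN := ((bG.cv ((bQ.cv bQ).add (i2.add i3))).sh).add ((bQ.cv bF).smul (-(k / 2)))
      unfold numQ ev
      rw [← tsum_mul_left, ← tsum_mul_left, ← (summable_ev hN ht).tsum_sub (hs.mul_left k)]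
      refine tsum_congr fun n => ?_
      have := (recursion k (by linarith) n).2.1
      simp only [numQ] at this
      linear_combination (t ^ n) * this
    rw [eQ, this]
    have i2 := bQ.smul (e1 k + e2 k)
    have i3 := bd_one.smul (e1 k * e2 k)
    have i4 := (bQ.cv bQ).add (i2.add i3)
    unfold numQ
    rw [ev_add ((bG.cv i4).sh) ((bQ.cv bF).smul _) ht, ev_sh (bG.cv i4) ht, ev_cv bG i4 ht,
      ev_add (bQ.cv bQ) (i2.add i3) ht, ev_cv bQ bQ ht, ev_add i2 i3 ht, ev_smul, ev_smul,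
      ev_smul, ev_one, ev_cv bQ bF ht]
    unfold sG sQ sF pp; ring
  · have hs := summable_ev bF ht
    have i1 := (bd_one.smul (s0 k)).add (bQ.smul (be k))
    have i2 := (bd_one.smul (2:ℝ)).add bF
    have : 2 * ev (fun n => (n:ℝ) * cF k n) t =
        ev (numF k (cG k) (cQ k) (cF k)) t - k * ev (cF k) t := by
      have hN := ((bF.cv bF).smul (-(k / 2))).add (bG.cv (i1.cv i2)).sh
      unfold numF ev
      rw [← tsum_mul_left, ← tsum_mul_left, ← (summable_ev hN ht).tsum_sub (hs.mul_left k)]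
      refine tsum_congr fun n => ?_
      have := (recursion k (by linarith) n).1
      simp only [numF] at this
      linear_combination (t ^ n) * this
    rw [eF, this]
    unfold numF
    rw [ev_add ((bF.cv bF).smul _) (bG.cv (i1.cv i2)).sh ht, ev_smul, ev_cv bF bF ht,
      ev_sh (bG.cv (i1.cv i2)) ht, ev_cv bG (i1.cv i2) ht, ev_cv i1 i2 ht,
      ev_add (bd_one.smul _) (bQ.smul _) ht, ev_add (bd_one.smul _) bF ht]
    simp only [ev_smul, ev_one]
    unfold sG sQ sF sg; ring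

end

end Vale.Agent.P252
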